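import Vale.Agent.P267.H739.Geo

/-!
# P267, ROUTE S, (C2) (helper433), part 0: the sets of the collar

`Pre`: the sets `V`, `K₂`, the level `R₀` and the radius `ε` from which the collar `Coll` is built;
`exists_pre`: they exist.
-/

set_option linter.unusedSectionVars false

open scoped Manifold ContDiff ComplexConjugate Matrix
open Set Filter Topology Metric

noncomputable section

namespace Vale.Agent.P267.H433

open Vale.Agent.P267.FL Vale.Agent.P267.XT Vale.Agent.P267.H692 Vale.Agent.P267.H739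
  Vale.Agent.P267.H188 Vale.Agent.P267.H338

/-- closed polyrings -/
def PR (a b c : ℝ) : Set C2 := {z | a ≤ ‖z 0‖ ∧ ‖z 0‖ ≤ b ∧ ‖z 1‖ ≤ c}

/-- open polyrings -/
def PO (a b c : ℝ) : Set C2 := {z | a < ‖z 0‖ ∧ ‖z 0‖ < b ∧ ‖z 1‖ < c}

theorem cn0 : Continuous fun z : C2 => ‖z 0‖ := (continuous_apply 0).norm

theorem cn1 : Continuous fun z : C2 => ‖z 1‖ := (continuous_apply 1).norm

theorem isCompact_PR (a b c : ℝ) : IsCompact (PR a b c) := by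
  have hcl : IsClosed (PR a b c) := (isClosed_le continuous_const cn0).inter
    ((isClosed_le cn0 continuous_const).inter (isClosed_le cn1 continuous_const))
  refine (isCompact_closedBall (0 : C2) (max (max b c) 0)).of_isClosed_subset hcl ?_
  intro z hz
  rw [mem_closedBall_zero_iff, pi_norm_le_iff_of_nonneg (le_max_right _ _)]
  intro i
  fin_cases i
  · exact hz.2.1.trans ((le_max_left _ _).trans (le_max_left _ _))
  · exact hz.2.2.trans ((le_max_right _ _).trans (le_max_left _ _))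

theorem isOpen_PO (a b c : ℝ) : IsOpen (PO a b c) :=
  (isOpen_lt continuous_const cn0).inter ((isOpen_lt cn0 continuous_const).inter
    (isOpen_lt cn1 continuous_const))

theorem pos_min {Z : Type*} [TopologicalSpace Z] {K : Set Z} (hK : IsCompact K) {g : Z → ℝ}
    (hg : ContinuousOn g K) (h : ∀ z ∈ K, 0 < g z) : ∃ m > 0, ∀ z ∈ K, m ≤ g z := by
  rcases K.eq_empty_or_nonempty with rfl | hne
  · exact ⟨1, one_pos, fun z hz => absurd hz (notMem_empty z)⟩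
  · obtain ⟨z₀, hz₀, hmin⟩ := hK.exists_isMinOn hne hg
    exact ⟨g z₀, h z₀ hz₀, fun z hz => hmin hz⟩

variable {M : Type} [TopologicalSpace M] [ChartedSpace C2 M]

/-- the open set `B₀` -/
def B0 (f : M → ℝ) (R₀ : ℝ) (V : Set M) : Set M := V ∪ {p | f p < R₀}

/-- the closed set `Bc ⊇ B₀` -/
def Bc (f : M → ℝ) (R₀ : ℝ) (K : Set M) : Set M := K ∪ {p | f p ≤ R₀}

/-- the sets and constants from which the collar is built -/
structure Pre {E : Type} [NormedAddCommGroup E] (f : M → ℝ) (α' : M → E) (φ : EmbP1 M) (W : Set M)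
    (x : M → ℂ) (κ : Ch M) (r₁ r₂ e R₀ ρ₁ ρ₂ ε : ℝ) (V K : Set M) : Prop where
  ε_pos : 0 < ε
  ε_lt : ε < e
  r1 : r₁ < ρ₁
  r2 : ρ₁ < ρ₂
  r3 : ρ₂ < r₂
  V_open : IsOpen V
  K_comp : IsCompact K
  V_sub : V ⊆ K
  Bc_W : Bc f R₀ K ⊆ W
  Y_sub : ∀ p, α' p = 0 → p ∈ B0 f R₀ V
  disc : ∀ t : ℂ, ‖t‖ ≤ ρ₁ → φ.f₀ t ∈ V
  /-- (i) -/
  inn : ∀ z : C2, r₁ ≤ ‖z 0‖ → ‖z 0‖ ≤ ρ₁ → ‖z 1‖ ≤ ε → κ.symm z ∈ V
  /-- (ii) -/
  out : ∀ z : C2, ρ₂ ≤ ‖z 0‖ → ‖z 0‖ ≤ r₂ → ‖z 1‖ ≤ ε → κ.symm z ∉ Bc f R₀ K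
  /-- (iii) -/
  bdry : ∀ p ∈ Bc f R₀ K, ‖x p‖ < ε → p ∈ B0 f R₀ V ∨ (p ∈ κ.source ∧ κ p ∈ PO r₁ r₂ ε)
  img : ∀ p ∈ φ.image, p ∈ B0 f R₀ V → ∃ t : ℂ, ‖t‖ < ρ₂ ∧ p = φ.f₀ t

theorem isClosed_Bc [T2Space M] {f : M → ℝ} (hf : Continuous f) {R₀ : ℝ} {K : Set M}
    (hK : IsCompact K) : IsClosed (Bc f R₀ K) :=
  hK.isClosed.union (isClosed_le hf continuous_const)

theorem isOpen_B0 {f : M → ℝ} (hf : Continuous f) {R₀ : ℝ} {V : Set M} (hV : IsOpen V) :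
    IsOpen (B0 f R₀ V) := hV.union (isOpen_lt hf continuous_const)

theorem B0_sub_Bc {f : M → ℝ} {R₀ : ℝ} {V K : Set M} (h : V ⊆ K) : B0 f R₀ V ⊆ Bc f R₀ K :=
  union_subset_union h fun _ hp => (show f _ < R₀ from hp).le

/-- a point of the image of `φ` off the outer disc -/
theorem img_off (φ : EmbP1 M) {ρ : ℝ} (hρ : 0 < ρ) {p : M} (hp : p ∈ φ.image)
    (h : p ∉ φ.f₁ '' closedBall 0 ρ⁻¹) : ∃ t : ℂ, ‖t‖ < ρ ∧ p = φ.f₀ t := by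
  rcases hp with ⟨t, rfl⟩ | rfl
  · refine ⟨t, ?_, rfl⟩
    by_contra hcon
    rw [not_lt] at hcon
    have ht : t ≠ 0 := norm_pos_iff.1 (hρ.trans_le hcon)
    refine h ⟨t⁻¹, ?_, ?_⟩
    · rw [mem_closedBall_zero_iff, norm_inv]
      exact inv_anti₀ hρ hcon
    · rw [φ.glue' _ (inv_ne_zero ht), inv_inv]
  · exact absurd ⟨0, by simp [hρ.le], rfl⟩ h

/-- the inner disc is disjoint from the outer disc -/
theorem disc_off (φ : EmbP1 M) {ρ : ℝ} (hρ : 0 < ρ) {t : ℂ} (ht : ‖t‖ < ρ) :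
    φ.f₀ t ∉ φ.f₁ '' closedBall 0 ρ⁻¹ := by
  rintro ⟨s, hs, hst⟩
  rw [mem_closedBall_zero_iff] at hs
  rcases eq_or_ne s 0 with rfl | h0
  · exact φ.ninf ⟨t, hst.symm⟩
  · rw [φ.glue' s h0] at hst
    have h1 : s⁻¹ = t := φ.inj hst
    have h2 : ρ ≤ ‖s⁻¹‖ := by
      rw [norm_inv]
      have := inv_anti₀ (norm_pos_iff.2 h0) hs
      rwa [inv_inv] at this
    rw [h1] at h2
    linarith

/-- the outer part of the ring is in the outer disc -/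
theorem ring_out (φ : EmbP1 M) {ρ : ℝ} (hρ : 0 < ρ) {t : ℂ} (ht : ρ ≤ ‖t‖) :
    φ.f₀ t ∈ φ.f₁ '' closedBall 0 ρ⁻¹ := by
  have h0 : t ≠ 0 := norm_pos_iff.1 (hρ.trans_le ht)
  refine ⟨t⁻¹, ?_, ?_⟩
  · rw [mem_closedBall_zero_iff, norm_inv]
    exact inv_anti₀ hρ ht
  · rw [φ.glue' _ (inv_ne_zero h0), inv_inv]

variable [IsManifold 𝓘(ℂ, C2) ω M] [T2Space M]

/-- shrinking `ε` for a condition on a compact part of the ring -/
theorem shrink {κ : Ch M} {φ : EmbP1 M} {W : Set M} {x : M → ℂ} {r₁ r₂ e : ℝ}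
    (hr : RingChart φ W x r₁ r₂ e κ) {a b : ℝ} (ha : r₁ ≤ a) (hb : b ≤ r₂)
    {O : Set M} (hO : IsOpen O) (h : ∀ t : ℂ, a ≤ ‖t‖ → ‖t‖ ≤ b → φ.f₀ t ∈ O) (he : 0 < e) :
    ∃ ε > 0, ε < e ∧ ∀ z : C2, a ≤ ‖z 0‖ → ‖z 0‖ ≤ b → ‖z 1‖ ≤ ε → κ.symm z ∈ O := by
  have hsub : PR a b e ⊆ κ.target := fun z hz => hr.target ⟨ha.trans hz.1, hz.2.1.trans hb, hz.2.2⟩
  have hc : ContinuousOn κ.symm (PR a b e) := κ.continuousOn_symm.mono hsub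
  have hK : IsCompact (PR a b e ∩ κ.symm ⁻¹' Oᶜ) := by
    have h1 := hc.preimage_isClosed_of_isClosed (isCompact_PR a b e).isClosed hO.isClosed_compl
    exact (isCompact_PR a b e).of_isClosed_subset h1 inter_subset_left
  obtain ⟨m, hm, hmin⟩ := pos_min hK (g := fun z => ‖z 1‖) cn1.continuousOn (by
    rintro z ⟨hz, hzO⟩
    rw [norm_pos_iff]
    intro h0
    apply hzO
    have h1 := hr.img (z 0) (ha.trans hz.1) (hz.2.1.trans hb)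
    have h2 : z = ![z 0, 0] := by
      funext i
      fin_cases i
      · rfl
      · exact h0
    have h3 : κ.symm z = φ.f₀ (z 0) := by
      have h4 := κ.left_inv h1.1
      rw [h1.2, ← h2] at h4
      exact h4
    rw [h3]
    exact h (z 0) hz.1 hz.2.1)
  refine ⟨min (m / 2) (e / 2), by positivity, (min_le_right _ _).trans_lt (by linarith), ?_⟩
  intro z h1 h2 h3
  by_contra hcon
  have h4 : z ∈ PR a b e ∩ κ.symm ⁻¹' Oᶜ :=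
    ⟨⟨h1, h2, h3.trans ((min_le_right _ _).trans (by linarith))⟩, hcon⟩
  have h5 := hmin z h4
  have h6 : min (m / 2) (e / 2) ≤ m / 2 := min_le_left _ _
  linarith

variable {ι ι' : Type} [Fintype ι] [DecidableEq ι] [Fintype ι'] [DecidableEq ι']
variable {D : XTData M} {L : LB M ι} {a : M → Fin 2 → ℂ} {α : M → EuclideanSpace ℂ ι}
  {L' : LB M ι'} {a' : M → Fin 2 → ℂ} {α' : M → EuclideanSpace ℂ ι'}
  {φ : EmbP1 M} {W : Set M} {lam : M → EuclideanSpace ℂ ι} {x : M → ℂ} {r₁ r₂ e : ℝ} {κ : Ch M}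

/-- **existence of the sets** -/
theorem exists_pre (hfc : Continuous D.f) (hα'c : Continuous α') {R' : ℝ}
    (hα'out : ∀ p, R' ≤ D.f p → α' p ≠ 0) (G : Geo D L a α α' φ W lam x)
    (hr : RingChart φ W x r₁ r₂ e κ) (h1 : 0 < r₁) (h12 : r₁ < r₂) (he : 0 < e)
    (hW : ∀ t : ℂ, ‖t‖ ≤ r₂ → φ.f₀ t ∈ W) (R₁ : ℝ) :
    ∃ (R₀ ρ₁ ρ₂ ε : ℝ) (V K : Set M), R₀ ≤ R₁ ∧
      Pre D.f α' φ W x κ r₁ r₂ e R₀ ρ₁ ρ₂ ε V K := by
  haveI : LocallyCompactSpace M := ChartedSpace.locallyCompactSpace C2 M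
  obtain ⟨ρ₁, hρ₁⟩ : ∃ ρ₁, ρ₁ = r₁ + (r₂ - r₁) / 3 := ⟨_, rfl⟩
  obtain ⟨ρ₂, hρ₂⟩ : ∃ ρ₂, ρ₂ = r₁ + 2 * (r₂ - r₁) / 3 := ⟨_, rfl⟩
  have e1 : r₁ < ρ₁ := by rw [hρ₁]; linarith
  have e2 : ρ₁ < ρ₂ := by rw [hρ₁, hρ₂]; linarith
  have e3 : ρ₂ < r₂ := by rw [hρ₂]; linarith
  have hρ₂0 : 0 < ρ₂ := by linarith
  obtain ⟨r, C, hin⟩ := G.inn
  -- the level `R₀`
  obtain ⟨m₀, hm₀⟩ : ∃ m₀ : ℝ, ∀ p ∈ φ.image, m₀ ≤ D.f p := by
    obtain ⟨q, -, hq⟩ := φ.isCompact_image.exists_isMinOn ⟨_, φ.mem_image_f₀ 0⟩ hfc.continuousOn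
    exact ⟨D.f q, fun p hp => hq hp⟩
  obtain ⟨R₀, hR₀⟩ : ∃ R₀, R₀ = min (min r R₁) (m₀ - 1) := ⟨_, rfl⟩
  have hR₀r : R₀ ≤ r := by rw [hR₀]; exact (min_le_left _ _).trans (min_le_left _ _)
  have hR₀R : R₀ ≤ R₁ := by rw [hR₀]; exact (min_le_left _ _).trans (min_le_right _ _)
  have hR₀m : ∀ p ∈ φ.image, R₀ < D.f p := by
    intro p hp
    have := hm₀ p hp
    have h2 : R₀ ≤ m₀ - 1 := by rw [hR₀]; exact min_le_right _ _
    linarith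
  -- the compact set `K₁`
  obtain ⟨K₁, hK₁⟩ : ∃ K₁ : Set M, K₁ = ({p | α' p = 0} ∩ D.f ⁻¹' Icc (R₀ - 1) R') ∪
    φ.f₀ '' closedBall 0 ρ₁ := ⟨_, rfl⟩
  have hK₁c : IsCompact K₁ := by
    rw [hK₁]
    refine IsCompact.union ?_ ((isCompact_closedBall _ _).image φ.holo₀.continuous)
    exact (D.f_proper _ _).inter_left (isClosed_eq hα'c continuous_const)
  have hYK₁ : ∀ p, α' p = 0 → R₀ - 1 ≤ D.f p → p ∈ K₁ := by
    intro p hp hfp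
    rw [hK₁]
    exact Or.inl ⟨hp, hfp, le_of_not_ge fun h => hα'out p h hp⟩
  have hdK₁ : ∀ t : ℂ, ‖t‖ ≤ ρ₁ → φ.f₀ t ∈ K₁ := by
    intro t ht
    rw [hK₁]
    exact Or.inr ⟨t, by simpa using ht, rfl⟩
  obtain ⟨Out, hOut⟩ : ∃ Out : Set M, Out = φ.f₁ '' closedBall 0 ρ₂⁻¹ := ⟨_, rfl⟩
  have hOutc : IsClosed Out := by
    rw [hOut]
    exact ((isCompact_closedBall _ _).image φ.holo₁.continuous).isClosed
  have hOutI : Out ⊆ φ.image := by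
    rw [hOut]
    rintro _ ⟨s, -, rfl⟩
    exact φ.mem_image_f₁ s
  have hK₁sub : K₁ ⊆ W \ Out := by
    rw [hK₁]
    rintro p (⟨hp, -⟩ | ⟨t, ht, rfl⟩)
    · refine ⟨G.Y_sub p hp, fun hpo => ?_⟩
      have h3 := G.meet p (hOutI hpo) hp
      rw [h3, hOut] at hpo
      exact disc_off φ hρ₂0 (by simpa using hρ₂0) hpo
    · have ht' : ‖t‖ ≤ ρ₁ := by simpa using ht
      refine ⟨hW t (ht'.trans (e2.le.trans e3.le)), ?_⟩
      rw [hOut]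
      exact disc_off φ hρ₂0 (ht'.trans_lt e2)
  obtain ⟨K, hK, hK₁K, hKsub⟩ := exists_compact_between hK₁c (G.open_W.sdiff hOutc) hK₁sub
  obtain ⟨V, hV⟩ : ∃ V, V = interior K := ⟨_, rfl⟩
  have hVo : IsOpen V := by rw [hV]; exact isOpen_interior
  have hVK : V ⊆ K := by rw [hV]; exact interior_subset
  have hK₁V : K₁ ⊆ V := by rw [hV]; exact hK₁K
  have hBcW : Bc D.f R₀ K ⊆ W := by
    rintro p (hp | hp)
    · exact (hKsub hp).1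
    · exact (hin p ((show D.f p ≤ R₀ from hp).trans hR₀r)).1
  have hBcOut : ∀ p ∈ Out, p ∉ Bc D.f R₀ K := by
    rintro p hp (hpK | hpf)
    · exact (hKsub hpK).2 hp
    · exact absurd (hR₀m p (hOutI hp)) (not_lt.2 hpf)
  have hY : ∀ p, α' p = 0 → p ∈ B0 D.f R₀ V := by
    intro p hp
    by_cases h : D.f p < R₀
    · exact Or.inr h
    · exact Or.inl (hK₁V (hYK₁ p hp (by linarith [not_lt.1 h])))
  have hdisc : ∀ t : ℂ, ‖t‖ ≤ ρ₁ → φ.f₀ t ∈ V := fun t ht => hK₁V (hdK₁ t ht)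
  have himg : ∀ p ∈ φ.image, p ∈ Bc D.f R₀ K → ∃ t : ℂ, ‖t‖ < ρ₂ ∧ p = φ.f₀ t := by
    intro p hp hB
    refine img_off φ hρ₂0 hp fun h => ?_
    rw [← hOut] at h
    exact hBcOut p h hB
  -- (i)
  obtain ⟨ε₁, hε₁, hε₁e, hi⟩ := shrink hr le_rfl (e2.le.trans e3.le) hVo
    (fun t _ ht => hdisc t ht) he
  -- (ii)
  obtain ⟨ε₂, hε₂, hε₂e, hii⟩ := shrink hr (e1.le.trans e2.le) le_rfl
    (O := (Bc D.f R₀ K)ᶜ) (isClosed_Bc hfc hK).isOpen_compl (fun t ht _ => by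
      refine hBcOut _ ?_
      rw [hOut]
      exact ring_out φ hρ₂0 ht) he
  -- (iii)
  obtain ⟨ε₀, hε₀⟩ : ∃ ε₀, ε₀ = min ε₁ ε₂ := ⟨_, rfl⟩
  have hε₀0 : 0 < ε₀ := by rw [hε₀]; exact lt_min hε₁ hε₂
  have hε₀e : ε₀ < e := by rw [hε₀]; exact (min_le_left _ _).trans_lt hε₁e
  obtain ⟨S, hS⟩ : ∃ S : Set M, S = κ.source ∩ κ ⁻¹' PO r₁ r₂ ε₀ := ⟨_, rfl⟩
  have hSo : IsOpen S := by rw [hS]; exact κ.isOpen_inter_preimage (isOpen_PO _ _ _)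
  obtain ⟨Q, hQ⟩ : ∃ Q : Set M, Q = ((K ∪ D.f ⁻¹' Icc R₀ R₀) \ B0 D.f R₀ V) \ S := ⟨_, rfl⟩
  have hQc : IsCompact Q := by
    rw [hQ]
    exact ((hK.union (D.f_proper _ _)).diff (isOpen_B0 hfc hVo)).diff hSo
  have hQW : Q ⊆ W := by
    rw [hQ]
    rintro p ⟨⟨hp | hp, -⟩, -⟩
    · exact (hKsub hp).1
    · exact hBcW (Or.inr hp.2)
  have hxc : ContinuousOn (fun p => ‖x p‖) Q := fun p hp =>
    (holAt_cont (G.x_hol p (hQW hp))).norm.continuousWithinAt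
  obtain ⟨m, hm, hmin⟩ := pos_min hQc hxc (by
    intro p hp
    rw [norm_pos_iff]
    intro h0
    have hpW := hQW hp
    rw [hQ] at hp
    obtain ⟨⟨hpK, hpB⟩, hpS⟩ := hp
    rcases G.zero p hpW h0 with h3 | h3
    · exact hpB (hY p h3)
    · have hpBc : p ∈ Bc D.f R₀ K := by
        rcases hpK with h | h
        · exact Or.inl h
        · exact Or.inr h.2
      obtain ⟨t, ht, rfl⟩ := himg p h3 hpBc
      have ht1 : ρ₁ < ‖t‖ := by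
        by_contra hcon
        exact hpB (Or.inl (hdisc t (not_lt.1 hcon)))
      apply hpS
      have h4 := hr.img t (e1.le.trans ht1.le) (ht.le.trans e3.le)
      rw [hS]
      refine ⟨h4.1, ?_⟩
      rw [mem_preimage, h4.2]
      refine ⟨?_, ?_, ?_⟩
      · simpa using e1.trans ht1
      · simpa using ht.trans e3
      · simpa using hε₀0)
  obtain ⟨ε, hε⟩ : ∃ ε, ε = min ε₀ m := ⟨_, rfl⟩
  have hε0 : 0 < ε := by rw [hε]; exact lt_min hε₀0 hm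
  have hεε₀ : ε ≤ ε₀ := by rw [hε]; exact min_le_left _ _
  have hεm : ε ≤ m := by rw [hε]; exact min_le_right _ _
  have hε₀1 : ε₀ ≤ ε₁ := by rw [hε₀]; exact min_le_left _ _
  have hε₀2 : ε₀ ≤ ε₂ := by rw [hε₀]; exact min_le_right _ _
  refine ⟨R₀, ρ₁, ρ₂, ε, V, K, hR₀R, ⟨hε0, hεε₀.trans_lt hε₀e, e1, e2, e3, hVo, hK, hVK, hBcW,
    hY, hdisc, fun z h3 h4 h5 => hi z h3 h4 (h5.trans (hεε₀.trans hε₀1)),
    fun z h3 h4 h5 => hii z h3 h4 (h5.trans (hεε₀.trans hε₀2)), ?_,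
    fun p hp hpB => himg p hp (B0_sub_Bc hVK hpB)⟩⟩
  intro p hp hx
  by_cases hpB : p ∈ B0 D.f R₀ V
  · exact Or.inl hpB
  right
  have hpQ' : p ∈ (K ∪ D.f ⁻¹' Icc R₀ R₀) \ B0 D.f R₀ V := by
    refine ⟨?_, hpB⟩
    rcases hp with h | h
    · exact Or.inl h
    · exact Or.inr ⟨le_of_not_gt fun h' => hpB (Or.inr h'), h⟩
  have hpS : p ∈ S := by
    by_contra hcon
    have h3 : p ∈ Q := by rw [hQ]; exact ⟨hpQ', hcon⟩
    have h4 := hmin p h3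
    linarith
  rw [hS] at hpS
  refine ⟨hpS.1, hpS.2.1, hpS.2.2.1, ?_⟩
  rw [hr.coord p hpS.1]
  exact hx

end Vale.Agent.P267.H433
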