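import Vale.Agent.P267.H433.Coll0

/-!
# P267, ROUTE S, (C2) (helper433), part 1: the collar

`exists_coll`: the collar neighbourhood `Coll` with `CollGeo`.
-/

set_option linter.unusedSectionVars false

open scoped Manifold ContDiff ComplexConjugate Matrix
open Set Filter Topology Metric

noncomputable section

namespace Vale.Agent.P267.H433

open Vale.Agent.P267.FL Vale.Agent.P267.XT Vale.Agent.P267.H692 Vale.Agent.P267.H739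
  Vale.Agent.P267.H188 Vale.Agent.P267.H338

variable {M : Type} [TopologicalSpace M] [ChartedSpace C2 M] [IsManifold 𝓘(ℂ, C2) ω M] [T2Space M]
variable {E : Type} [NormedAddCommGroup E] {f : M → ℝ} {α' : M → E} {φ : EmbP1 M} {W : Set M}
  {x : M → ℂ} {κ : Ch M} {r₁ r₂ e R₀ ρ₁ ρ₂ ε : ℝ} {V K : Set M}

/-- the part of the source of `κ` over the open polyring -/
def RS (κ : Ch M) (r₁ r₂ ε : ℝ) : Set M := κ.source ∩ κ ⁻¹' PO r₁ r₂ ε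

theorem isOpen_RS (κ : Ch M) (r₁ r₂ ε : ℝ) : IsOpen (RS κ r₁ r₂ ε) :=
  κ.isOpen_inter_preimage (isOpen_PO _ _ _)

/-- the collar -/
def NN (f : M → ℝ) (W : Set M) (x : M → ℂ) (κ : Ch M) (r₁ r₂ ε R₀ : ℝ) (V : Set M) : Set M :=
  (B0 f R₀ V ∪ RS κ r₁ r₂ ε) ∩ {p | p ∈ W ∧ ‖x p‖ < ε}

/-- compact polyrings in `M` -/
theorem ring_compact {a b c : ℝ} (h : PR a b c ⊆ κ.target) : IsCompact (κ.symm '' PR a b c) :=
  (isCompact_PR a b c).image_of_continuousOn (κ.continuousOn_symm.mono h)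

section pre

variable (P : Pre f α' φ W x κ r₁ r₂ e R₀ ρ₁ ρ₂ ε V K) (hr : RingChart φ W x r₁ r₂ e κ)
include P hr

theorem PR_sub {a b c : ℝ} (ha : r₁ ≤ a) (hb : b ≤ r₂) (hc : c ≤ ε) : PR a b c ⊆ κ.target :=
  fun _ hz => hr.target ⟨ha.trans hz.1, hz.2.1.trans hb, hz.2.2.trans (hc.trans P.ε_lt.le)⟩

omit P in
theorem RS_W : RS κ r₁ r₂ ε ⊆ W := fun _ hp => hr.source hp.1

omit P in
theorem RS_x {p : M} (hp : p ∈ RS κ r₁ r₂ ε) : ‖x p‖ < ε := by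
  rw [← hr.coord p hp.1]
  exact hp.2.2.2

theorem B0_W : B0 f R₀ V ⊆ W := (B0_sub_Bc P.V_sub).trans P.Bc_W

theorem RS_sub_NN : RS κ r₁ r₂ ε ⊆ NN f W x κ r₁ r₂ ε R₀ V := fun _ hp =>
  ⟨Or.inr hp, RS_W hr hp, RS_x hr hp⟩

theorem isOpen_NN (hf : Continuous f) (hWo : IsOpen W) (hx : ∀ p ∈ W, ContinuousAt x p) :
    IsOpen (NN f W x κ r₁ r₂ ε R₀ V) := by
  refine ((isOpen_B0 hf P.V_open).union (isOpen_RS _ _ _ _)).inter ?_
  rw [isOpen_iff_mem_nhds]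
  rintro p ⟨hp, hxp⟩
  filter_upwards [hWo.mem_nhds hp, (hx p hp).norm.eventually_lt_const hxp] with q h1 h2
  exact ⟨h1, h2⟩

/-- points of the ring over `ρ₁` and below are in `V` -/
theorem RS_inner {p : M} (hp : p ∈ RS κ r₁ r₂ ε) (h : ‖κ p 0‖ ≤ ρ₁) : p ∈ B0 f R₀ V := by
  have h1 := P.inn (κ p) hp.2.1.le h hp.2.2.2.le
  rw [κ.left_inv hp.1] at h1
  exact Or.inl h1

theorem RS_outer {p : M} (hp : p ∈ RS κ r₁ r₂ ε) (h : ρ₂ ≤ ‖κ p 0‖) : p ∉ Bc f R₀ K := by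
  have h1 := P.out (κ p) h hp.2.2.1.le hp.2.2.2.le
  rwa [κ.left_inv hp.1] at h1

theorem closed_in' (hf : Continuous f) (hx : ∀ p ∈ W, ContinuousAt x p)
    {τ e' : ℝ} (h2 : τ < r₂) (he' : e' < ε) :
    IsClosed {p | p ∈ NN f W x κ r₁ r₂ ε R₀ V ∧ ‖x p‖ ≤ e' ∧
      ¬ (p ∈ RS κ r₁ r₂ ε ∧ τ < ‖κ p 0‖)} := by
  rw [← isOpen_compl_iff, isOpen_iff_mem_nhds]
  intro p hp
  by_contra hcon
  have hfr : ∃ᶠ q in 𝓝 p, q ∈ NN f W x κ r₁ r₂ ε R₀ V ∧ ‖x q‖ ≤ e' ∧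
      ¬ (q ∈ RS κ r₁ r₂ ε ∧ τ < ‖κ q 0‖) := by
    intro h
    apply hcon
    filter_upwards [h] with q hq using hq
  apply hp
  have hfr' : ∃ᶠ q in 𝓝 p, (q ∈ Bc f R₀ K ∧ ‖x q‖ ≤ e' ∧ ¬ (q ∈ RS κ r₁ r₂ ε ∧ τ < ‖κ q 0‖)) ∨
      q ∈ κ.symm '' PR ρ₁ τ e' := by
    refine hfr.mono ?_
    rintro q ⟨⟨hq, hqW⟩, hqx, hqr⟩
    by_cases hB : q ∈ B0 f R₀ V
    · exact Or.inl ⟨B0_sub_Bc P.V_sub hB, hqx, hqr⟩
    · have hS : q ∈ RS κ r₁ r₂ ε := hq.resolve_left hB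
      right
      refine ⟨κ q, ⟨?_, ?_, ?_⟩, κ.left_inv hS.1⟩
      · by_contra h
        exact hB (RS_inner P hr hS (not_le.1 h).le)
      · by_contra h
        exact hqr ⟨hS, not_le.1 h⟩
      · rw [hr.coord q hS.1]
        exact hqx
  rw [frequently_or_distrib] at hfr'
  have hτ : PR ρ₁ τ e' ⊆ κ.target := PR_sub P hr P.r1.le h2.le he'.le
  rcases hfr' with h | h
  · have hpB : p ∈ Bc f R₀ K := (isClosed_Bc hf P.K_comp).mem_of_frequently_of_tendsto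
      (h.mono fun q hq => hq.1) tendsto_id
    have hxp : ‖x p‖ ≤ e' := by
      by_contra hcon2
      have h3 : ∀ᶠ q in 𝓝 p, e' < ‖x q‖ :=
        (hx p (P.Bc_W hpB)).norm.eventually_const_lt (not_le.1 hcon2)
      obtain ⟨q, hq, hq'⟩ := (h.and_eventually h3).exists
      exact absurd hq.2.1 (not_le.2 hq')
    have hBS := P.bdry p hpB (hxp.trans_lt he')
    refine ⟨⟨hBS, P.Bc_W hpB, hxp.trans_lt he'⟩, hxp, ?_⟩
    rintro ⟨hS, hτp⟩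
    have h3 : ∀ᶠ q in 𝓝 p, q ∈ RS κ r₁ r₂ ε := (isOpen_RS _ _ _ _).mem_nhds hS
    have h4 : ∀ᶠ q in 𝓝 p, τ < ‖κ q 0‖ := by
      have h5 : ContinuousAt (fun q => ‖κ q 0‖) p :=
        cn0.continuousAt.comp (κ.continuousAt hS.1)
      exact h5.eventually_const_lt hτp
    obtain ⟨q, hq, hq3, hq4⟩ := (h.and_eventually (h3.and h4)).exists
    exact hq.2.2 ⟨hq3, hq4⟩
  · have hp2 : p ∈ κ.symm '' PR ρ₁ τ e' := (ring_compact hτ).isClosed.mem_of_frequently_of_tendsto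
      h tendsto_id
    obtain ⟨z, hz, rfl⟩ := hp2
    have hzt := hτ hz
    have e1 := κ.right_inv hzt
    have hS : κ.symm z ∈ RS κ r₁ r₂ ε := by
      refine ⟨κ.map_target hzt, ?_⟩
      rw [mem_preimage, e1]
      exact ⟨P.r1.trans_le hz.1, hz.2.1.trans_lt h2, hz.2.2.trans_lt he'⟩
    have hxz : ‖x (κ.symm z)‖ ≤ e' := by
      rw [← hr.coord _ hS.1, e1]
      exact hz.2.2
    refine ⟨RS_sub_NN P hr hS, hxz, ?_⟩
    rintro ⟨-, h3⟩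
    rw [e1] at h3
    exact absurd hz.2.1 (not_le.2 h3)

theorem ring_closed' (hf : Continuous f) {τ : ℝ} (h1 : r₁ < τ) {p : M}
    (hp : p ∈ NN f W x κ r₁ r₂ ε R₀ V)
    (hfr : ∃ᶠ q in 𝓝 p, q ∈ RS κ r₁ r₂ ε ∧ τ ≤ ‖κ q 0‖) :
    p ∈ RS κ r₁ r₂ ε ∧ τ ≤ ‖κ p 0‖ := by
  have key : p ∈ RS κ r₁ r₂ ε := by
    by_contra hS
    have hB : p ∈ B0 f R₀ V := hp.1.resolve_right hS
    have h3 : ∀ᶠ q in 𝓝 p, q ∈ B0 f R₀ V := (isOpen_B0 hf P.V_open).mem_nhds hB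
    have h4 : ∃ᶠ q in 𝓝 p, q ∈ κ.symm '' PR τ ρ₂ ε := by
      refine (hfr.and_eventually h3).mono ?_
      rintro q ⟨⟨hqS, hqτ⟩, hqB⟩
      refine ⟨κ q, ⟨hqτ, ?_, hqS.2.2.2.le⟩, κ.left_inv hqS.1⟩
      by_contra h
      exact RS_outer P hr hqS (not_le.1 h).le (B0_sub_Bc P.V_sub hqB)
    have hsub : PR τ ρ₂ ε ⊆ κ.target := PR_sub P hr h1.le P.r3.le le_rfl
    have h5 : p ∈ κ.symm '' PR τ ρ₂ ε := (ring_compact hsub).isClosed.mem_of_frequently_of_tendsto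
      h4 tendsto_id
    obtain ⟨z, hz, rfl⟩ := h5
    have hzt := hsub hz
    apply hS
    refine ⟨κ.map_target hzt, ?_⟩
    rw [mem_preimage, κ.right_inv hzt]
    refine ⟨h1.trans_le hz.1, hz.2.1.trans_lt P.r3, ?_⟩
    have h6 := hp.2.2
    rwa [← hr.coord _ (κ.map_target hzt), κ.right_inv hzt] at h6
  refine ⟨key, ?_⟩
  by_contra hcon
  have h5 : ContinuousAt (fun q => ‖κ q 0‖) p := cn0.continuousAt.comp (κ.continuousAt key.1)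
  obtain ⟨q, hq, hq'⟩ := (hfr.and_eventually (h5.eventually_lt_const (not_le.1 hcon))).exists
  exact absurd hq.2 (not_le.2 hq')

/-- `f` is bounded on the ring -/
theorem ring_bdd (hf : Continuous f) : ∃ A : ℝ, ∀ p ∈ RS κ r₁ r₂ ε, |f p| ≤ A := by
  have hsub : PR r₁ r₂ ε ⊆ κ.target := PR_sub P hr le_rfl le_rfl le_rfl
  obtain ⟨A, hA⟩ := (ring_compact hsub).exists_bound_of_continuousOn hf.continuousOn
  refine ⟨A, fun p hp => ?_⟩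
  exact hA p ⟨κ p, ⟨hp.2.1.le, hp.2.2.1.le, hp.2.2.2.le⟩, κ.left_inv hp.1⟩

theorem out' (hf : Continuous f) :
    ∃ A : ℝ, ∀ p ∈ NN f W x κ r₁ r₂ ε R₀ V, f p ≤ A := by
  obtain ⟨A, hA⟩ := ring_bdd P hr hf
  obtain ⟨A', hA'⟩ := P.K_comp.exists_bound_of_continuousOn hf.continuousOn
  refine ⟨max (max A A') R₀, ?_⟩
  rintro p ⟨(hp | hp) | hp, -⟩
  · exact (le_abs_self _).trans ((hA' p (P.V_sub hp)).trans
      ((le_max_right _ _).trans (le_max_left _ _)))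
  · exact (show f p < R₀ from hp).le.trans (le_max_right _ _)
  · exact (le_abs_self _).trans ((hA p hp).trans ((le_max_left _ _).trans (le_max_left _ _)))

theorem inn' (hf : Continuous f) {r : ℝ} (hx0 : ∀ δ : ℝ, 0 < δ → ∃ R : ℝ, ∀ p, f p ≤ R → ‖x p‖ < δ)
    (hrW : ∀ p, f p ≤ r → p ∈ W) : ∀ δ : ℝ, 0 < δ → ∃ R : ℝ, ∀ p, f p ≤ R →
      p ∈ NN f W x κ r₁ r₂ ε R₀ V ∧ p ∉ RS κ r₁ r₂ ε ∧ ‖x p‖ < δ := by
  intro δ hδ
  obtain ⟨A, hA⟩ := ring_bdd P hr hf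
  obtain ⟨R₁, h1⟩ := hx0 (min δ ε) (lt_min hδ P.ε_pos)
  refine ⟨min (min r R₁) (min (R₀ - 1) (-A - 1)), fun p hp => ?_⟩
  have e1 : f p ≤ r := hp.trans ((min_le_left _ _).trans (min_le_left _ _))
  have e2 : f p ≤ R₁ := hp.trans ((min_le_left _ _).trans (min_le_right _ _))
  have e3 : f p ≤ R₀ - 1 := hp.trans ((min_le_right _ _).trans (min_le_left _ _))
  have e4 : f p ≤ -A - 1 := hp.trans ((min_le_right _ _).trans (min_le_right _ _))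
  have h2 := h1 p e2
  refine ⟨⟨Or.inl (Or.inr (show f p < R₀ by linarith)), hrW p e1,
    h2.trans_le (min_le_right _ _)⟩, fun h => ?_, h2.trans_le (min_le_left _ _)⟩
  have h3 := hA p h
  rw [abs_le] at h3
  linarith [h3.1]

/-- bounds of a continuous function without zeros on `NN` -/
theorem norm_bd (hf : Continuous f) {G : Type} [NormedAddCommGroup G] {lam : M → G} {r C : ℝ}
    (hlc : ∀ p ∈ W, ContinuousAt lam p) (hl0 : ∀ p ∈ W, lam p ≠ 0) (hR : R₀ ≤ r)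
    (hin : ∀ p, f p ≤ r → 1 ≤ C * ‖lam p‖ ∧ ‖lam p‖ ≤ C) :
    ∃ C' : ℝ, 0 < C' ∧ ∀ p ∈ NN f W x κ r₁ r₂ ε R₀ V, C'⁻¹ ≤ ‖lam p‖ ∧ ‖lam p‖ ≤ C' := by
  have hsub : PR r₁ r₂ ε ⊆ κ.target := PR_sub P hr le_rfl le_rfl le_rfl
  have hQc : IsCompact (K ∪ κ.symm '' PR r₁ r₂ ε) := P.K_comp.union (ring_compact hsub)
  have hQW : K ∪ κ.symm '' PR r₁ r₂ ε ⊆ W := by
    rintro p (hp | ⟨z, hz, rfl⟩)
    · exact P.Bc_W (Or.inl hp)
    · exact hr.source (κ.map_target (hsub hz))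
  have hc : ContinuousOn (fun p => ‖lam p‖) (K ∪ κ.symm '' PR r₁ r₂ ε) := fun p hp =>
    (hlc p (hQW hp)).norm.continuousWithinAt
  obtain ⟨m, hm, hmin⟩ := pos_min hQc hc fun p hp => norm_pos_iff.2 (hl0 p (hQW hp))
  obtain ⟨A, hA⟩ := hQc.exists_bound_of_continuousOn hc
  obtain ⟨C', hC'⟩ : ∃ C', C' = max (max |C| m⁻¹) (max |A| 1) := ⟨_, rfl⟩
  have c0 : 0 < C' := by
    rw [hC']; exact zero_lt_one.trans_le ((le_max_right _ _).trans (le_max_right _ _))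
  have c1 : |C| ≤ C' := by rw [hC']; exact (le_max_left _ _).trans (le_max_left _ _)
  have c2 : m⁻¹ ≤ C' := by rw [hC']; exact (le_max_right _ _).trans (le_max_left _ _)
  have c3 : |A| ≤ C' := by rw [hC']; exact (le_max_left _ _).trans (le_max_right _ _)
  have key : ∀ p ∈ K ∪ κ.symm '' PR r₁ r₂ ε, C'⁻¹ ≤ ‖lam p‖ ∧ ‖lam p‖ ≤ C' := by
    intro p hp
    constructor
    · have h1 := inv_anti₀ (inv_pos.2 hm) c2
      rw [inv_inv] at h1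
      exact h1.trans (hmin p hp)
    · have h1 := hA p hp
      rw [norm_norm] at h1
      exact h1.trans ((le_abs_self A).trans c3)
  refine ⟨C', c0, ?_⟩
  rintro p ⟨(hp | hp) | hp, -⟩
  · exact key p (Or.inl (P.V_sub hp))
  · obtain ⟨h1, h2⟩ := hin p ((show f p < R₀ from hp).le.trans hR)
    refine ⟨?_, h2.trans ((le_abs_self C).trans c1)⟩
    have h3 : 1 ≤ C' * ‖lam p‖ := h1.trans
      (mul_le_mul_of_nonneg_right ((le_abs_self C).trans c1) (norm_nonneg _))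
    rw [inv_eq_one_div, div_le_iff₀ c0, mul_comm]
    exact h3
  · exact key p (Or.inr ⟨κ p, ⟨hp.2.1.le, hp.2.2.1.le, hp.2.2.2.le⟩, κ.left_inv hp.1⟩)

theorem img' {t : ℂ} (ht : ‖t‖ < r₂) (hW : φ.f₀ t ∈ W) (h0 : x (φ.f₀ t) = 0) :
    φ.f₀ t ∈ NN f W x κ r₁ r₂ ε R₀ V := by
  refine ⟨?_, hW, by rw [h0, norm_zero]; exact P.ε_pos⟩
  by_cases h : ‖t‖ ≤ ρ₁
  · exact Or.inl (Or.inl (P.disc t h))
  · right
    have h1 := hr.img t (P.r1.le.trans (not_le.1 h).le) ht.le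
    refine ⟨h1.1, ?_⟩
    rw [mem_preimage, h1.2]
    exact ⟨by simpa using P.r1.trans (not_le.1 h), by simpa using ht, by simpa using P.ε_pos⟩

theorem img_κ' {t : ℂ} (h1 : r₁ < ‖t‖) (ht : ‖t‖ < r₂) :
    φ.f₀ t ∈ RS κ r₁ r₂ ε ∧ κ (φ.f₀ t) = ![t, 0] := by
  have h2 := hr.img t h1.le ht.le
  refine ⟨⟨h2.1, ?_⟩, h2.2⟩
  rw [mem_preimage, h2.2]
  exact ⟨by simpa using h1, by simpa using ht, by simpa using P.ε_pos⟩

theorem zero' {p : M} (hp : p ∈ NN f W x κ r₁ r₂ ε R₀ V) (h0 : x p = 0) (him : p ∈ φ.image) :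
    ∃ t : ℂ, ‖t‖ < r₂ ∧ p = φ.f₀ t := by
  rcases hp.1 with h | h
  · obtain ⟨t, ht, h1⟩ := P.img p him h
    exact ⟨t, ht.trans P.r3, h1⟩
  · refine ⟨κ p 0, h.2.2.1, ?_⟩
    have h2 := hr.img (κ p 0) h.2.1.le h.2.2.1.le
    refine κ.injOn h.1 h2.1 ?_
    rw [h2.2]
    funext i
    fin_cases i
    · rfl
    · simpa [h0] using hr.coord p h.1

end pre

end Vale.Agent.P267.H433
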