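import Vale.Agent.P267.H433.Coll1

/-!
# P267, ROUTE S, (C2) (helper433): `exists_coll`

The collar neighbourhood from the geometric input `Geo` and the ring chart `RingChart`.
-/

set_option linter.unusedSectionVars false

open scoped Manifold ContDiff ComplexConjugate Matrix
open Set Filter Topology Metric

noncomputable section

namespace Vale.Agent.P267.H433

open Vale.Agent.P267.FL Vale.Agent.P267.XT Vale.Agent.P267.H692 Vale.Agent.P267.H739
  Vale.Agent.P267.H188 Vale.Agent.P267.H338

variable {M : Type} [TopologicalSpace M] [ChartedSpace C2 M] [IsManifold 𝓘(ℂ, C2) ω M] [T2Space M]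
variable {ι ι' : Type} [Fintype ι] [DecidableEq ι] [Fintype ι'] [DecidableEq ι']
variable {D : XTData M} {L : LB M ι} {a : M → Fin 2 → ℂ} {α : M → EuclideanSpace ℂ ι}
  {L' : LB M ι'} {a' : M → Fin 2 → ℂ} {α' : M → EuclideanSpace ℂ ι'}
  {φ : EmbP1 M} {W : Set M} {lam : M → EuclideanSpace ℂ ι} {x : M → ℂ} {r₁ r₂ e : ℝ} {κ : Ch M}
  {i₀' : ι'} {R' d d' : ℝ}

theorem cont_f (D : XTData M) : Continuous D.f := by
  have h1 : Continuous fun x => (D.f x : ℂ) :=
    continuous_iff_continuousAt.2 fun x => (D.f_smooth.at x).continuousAt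
  have h2 : D.f = fun x => ((D.f x : ℂ)).re := by
    funext x
    simp
  rw [h2]
  exact Complex.continuous_re.comp h1

/-- `x → 0` at the inner end -/
theorem x_tendsto (H' : XtCone D L' a' i₀' R' α' d d') (G : Geo D L a α α' φ W lam x) :
    ∀ δ : ℝ, 0 < δ → ∃ R : ℝ, ∀ p, D.f p ≤ R → ‖x p‖ < δ := by
  intro δ hδ
  obtain ⟨r, C, hin⟩ := G.inn
  obtain ⟨C', hC'⟩ := H'.α_in
  obtain ⟨A, hA⟩ : ∃ A, A = |C| * |C'| + 1 := ⟨_, rfl⟩
  have hA0 : 0 < A := by rw [hA]; positivity
  have hd' : 0 < d' := H'.d_pos.trans H'.d_lt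
  refine ⟨min (min r 0) (Real.log (δ / (2 * A)) / d'), fun p hp => ?_⟩
  have e1 : D.f p ≤ r := hp.trans ((min_le_left _ _).trans (min_le_left _ _))
  have e2 : D.f p ≤ 0 := hp.trans ((min_le_left _ _).trans (min_le_right _ _))
  have e3 : D.f p ≤ Real.log (δ / (2 * A)) / d' := hp.trans (min_le_right _ _)
  have h1 : Real.exp (d' * D.f p) ≤ δ / (2 * A) := by
    have h2 : d' * D.f p ≤ Real.log (δ / (2 * A)) := by
      rw [le_div_iff₀ hd'] at e3
      linarith
    calc Real.exp (d' * D.f p) ≤ Real.exp (Real.log (δ / (2 * A))) := Real.exp_le_exp.2 h2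
      _ = δ / (2 * A) := Real.exp_log (by positivity)
  calc ‖x p‖ ≤ C * ‖α' p‖ := (hin p e1).2.1
    _ ≤ |C| * ‖α' p‖ := mul_le_mul_of_nonneg_right (le_abs_self C) (norm_nonneg _)
    _ ≤ |C| * (|C'| * Real.exp (d' * D.f p)) := by
        refine mul_le_mul_of_nonneg_left ((hC' p e2).trans ?_) (abs_nonneg _)
        exact mul_le_mul_of_nonneg_right (le_abs_self C') (Real.exp_pos _).le
    _ ≤ A * Real.exp (d' * D.f p) := by
        rw [hA]
        nlinarith [Real.exp_pos (d' * D.f p)]
    _ ≤ A * (δ / (2 * A)) := mul_le_mul_of_nonneg_left h1 hA0.le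
    _ = δ / 2 := by field_simp
    _ < δ := by linarith

theorem α'_cont (H' : XtCone D L' a' i₀' R' α' d d') : Continuous α' :=
  continuous_iff_continuousAt.2 fun x => (H'.α_reg.at x).continuousAt

/-- **(C2)**: the collar neighbourhood -/
theorem exists_coll (H' : XtCone D L' a' i₀' R' α' d d') (G : Geo D L a α α' φ W lam x)
    (hr : RingChart φ W x r₁ r₂ e κ) (h1 : 0 < r₁) (h12 : r₁ < r₂) (he : 0 < e)
    (hW : ∀ t : ℂ, ‖t‖ ≤ r₂ → φ.f₀ t ∈ W) :
    ∃ C : Coll D L a α, CollGeo α' φ C ∧ C.x = x ∧ C.lam = lam ∧ C.N ⊆ W ∧ C.r₁ = r₁ ∧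
      C.r₂ = r₂ := by
  have hfc := cont_f D
  obtain ⟨r, C, hin⟩ := G.inn
  obtain ⟨R₀, ρ₁, ρ₂, ε, V, K, hR₀, P⟩ := exists_pre hfc (α'_cont H') H'.α_out G hr h1 h12 he hW r
  have hxc : ∀ p ∈ W, ContinuousAt x p := fun p hp => holAt_cont (G.x_hol p hp)
  have hlc : ∀ p ∈ W, ContinuousAt lam p := fun p hp =>
    (G.frame p hp).self_of_nhds.1.continuousAt
  have hl0 : ∀ p ∈ W, lam p ≠ 0 := fun p hp => (G.frame p hp).ne
  obtain ⟨N, hN⟩ : ∃ N, N = NN D.f W x κ r₁ r₂ ε R₀ V := ⟨_, rfl⟩
  have hNW : N ⊆ W := by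
    rw [hN]
    exact fun p hp => hp.2.1
  have hSo := isOpen_RS κ r₁ r₂ ε
  obtain ⟨κ', hκ'⟩ : ∃ κ' : Ch M, κ' = κ.restr (RS κ r₁ r₂ ε) := ⟨_, rfl⟩
  have hsrc : κ'.source = RS κ r₁ r₂ ε := by
    rw [hκ', OpenPartialHomeomorph.restr_source, hSo.interior_eq]
    exact inter_eq_right.2 fun p hp => hp.1
  have hcoe : ∀ p, κ' p = κ p := by
    intro p
    rw [hκ']
    rfl
  have htgt : κ'.target = {z | r₁ < ‖z 0‖ ∧ ‖z 0‖ < r₂ ∧ ‖z 1‖ < ε} := by
    ext z
    constructor
    · intro hz
      have h3 := κ'.map_target hz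
      rw [hsrc] at h3
      have h4 := κ'.right_inv hz
      rw [hcoe] at h4
      have h5 := h3.2
      rw [mem_preimage, h4] at h5
      exact h5
    · intro hz
      have h3 : z ∈ κ.target := hr.target ⟨hz.1.le, hz.2.1.le, hz.2.2.le.trans P.ε_lt.le⟩
      have h4 : κ.symm z ∈ κ'.source := by
        rw [hsrc]
        refine ⟨κ.map_target h3, ?_⟩
        rw [mem_preimage, κ.right_inv h3]
        exact hz
      have h5 := κ'.map_source h4
      rwa [hcoe, κ.right_inv h3] at h5
  have hmem : κ' ∈ IsManifold.maximalAtlas 𝓘(ℂ, C2) ω M := by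
    rw [hκ']
    exact restr_mem_maximalAtlas _ hr.mem hSo
  refine ⟨{ N := N
            isOpen := by rw [hN]; exact isOpen_NN P hr hfc G.open_W hxc
            x := x
            x_at := fun p hp => (G.x_hol p (hNW hp)).at0
            x_hol := fun p hp i => by rw [(G.x_hol p (hNW hp)).dbar0]; rfl
            lam := lam
            lam_at := fun p hp => (G.frame p (hNW hp)).self_of_nhds.1
            lam_sec := fun p hp => (G.frame p (hNW hp)).self_of_nhds.2.1
            lam_hol := fun p hp i => by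
              rw [(G.frame p (hNW hp)).self_of_nhds.2.2.2]; rfl
            lam_bd := by
              rw [hN]
              exact norm_bd P hr hfc hlc hl0 hR₀ fun p hp => (hin p hp).2.2
            fac := fun p hp => G.fac p (hNW hp)
            e := ε
            e_pos := P.ε_pos
            x_lt := by rw [hN]; exact fun p hp => hp.2.2
            κ := κ'
            κ_mem := hmem
            r₁ := r₁
            r₂ := r₂
            r₁_pos := h1
            r₁_lt := h12
            κ_source := by rw [hsrc, hN]; exact RS_sub_NN P hr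
            κ_target := htgt
            κ_x := by
              intro p hp
              rw [hsrc] at hp
              rw [hcoe]
              exact hr.coord p hp.1
            closed_in := by
              intro τ e' _ h3 h4
              simp only [hsrc, hcoe, hN]
              exact closed_in' P hr hfc hxc h3 h4
            ring_closed := by
              intro τ h3 _ p hp hfr
              simp only [hsrc, hcoe] at hfr ⊢
              rw [hN] at hp
              exact ring_closed' P hr hfc h3 hp hfr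
            out := by rw [hN]; exact out' P hr hfc
            inn := by
              intro δ hδ
              simp only [hsrc, hN]
              exact inn' P hr hfc (x_tendsto H' G) (fun p hp => (hin p hp).1) δ hδ }, ?_, rfl,
    rfl, hNW, rfl, rfl⟩
  have himg0 : ∀ t : ℂ, ‖t‖ < r₂ → x (φ.f₀ t) = 0 := by
    intro t ht
    have h3 := G.fac _ (hW t ht.le)
    rw [G.α_img _ (φ.mem_image_f₀ t)] at h3
    exact (smul_eq_zero.1 h3.symm).resolve_right (hl0 _ (hW t ht.le))
  refine
    { x_le := fun p hp => G.x_le p (hNW hp)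
      x_in := ⟨r, C, fun p hp => (hin p hp).2.1⟩
      Y_sub := ?_
      img := ?_
      img_κ := ?_
      zero := ?_
      α_img := G.α_img
      base := G.base
      meet := G.meet
      dx := ?_ }
  · intro p hp
    change p ∈ N
    rw [hN]
    refine ⟨Or.inl (P.Y_sub p hp), G.Y_sub p hp, ?_⟩
    obtain ⟨K', hK'⟩ := G.x_le p (G.Y_sub p hp)
    have h3 := hK'.self_of_nhds
    rw [hp, norm_zero, mul_zero] at h3
    exact h3.trans_lt P.ε_pos
  · intro t ht
    change φ.f₀ t ∈ N
    rw [hN]
    exact img' P hr ht (hW t (le_of_lt ht)) (himg0 t ht)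
  · intro t h3 h4
    change φ.f₀ t ∈ κ'.source ∧ κ' (φ.f₀ t) = ![t, 0]
    rw [hsrc, hcoe]
    exact img_κ' P hr h3 h4
  · intro p hp hx0
    change p ∈ N at hp
    rcases G.zero p (hNW hp) hx0 with h3 | h3
    · exact Or.inl h3
    · rw [hN] at hp
      exact Or.inr (zero' P hr hp hx0 h3)
  · intro t h3 h4
    refine G.dx _ (hW t (le_of_lt h4)) (φ.mem_image_f₀ t) fun h5 => ?_
    have h6 := φ.inj (G.meet _ (φ.mem_image_f₀ t) h5)
    rw [h6, norm_zero] at h3
    exact lt_irrefl _ h3

end Vale.Agent.P267.H433
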