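import Vale.Agent.P267.H509.CWSys

/-!
# P267 / H433 (F2 of RRC-GLUE), part 0: change of charts for the Riemann-Roch density

`cov_mul_comp`: `cov` of `y ↦ A (f y) * G y`; `Rd_change`: the form `Rd` under the change of
charts; `sum_three`: the sum over the partition of unity.
-/

set_option linter.unusedSectionVars false

open scoped Manifold ContDiff ComplexConjugate Matrix
open Set Filter Topology

noncomputable section

namespace Vale.Agent.P267.H433

open Vale.Agent.P267.FL Vale.Agent.P267.RR Vale.Agent.P267.H509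

/-- the matrix of the derivatives of the entries -/
def dzM {n : ℕ} (i : Fin 2) (A : C2 → Matrix (Fin n) (Fin n) ℂ) (z : C2) :
    Matrix (Fin n) (Fin n) ℂ := Matrix.of fun p q => dz i (fun w => A w p q) z

theorem cov_eq {n : ℕ} (A : C2 → Matrix (Fin n) (Fin n) ℂ) (z : C2) (i : Fin 2) :
    cov A z i = (A z)⁻¹ * dzM i A z := rfl

theorem dzM_congr {n : ℕ} {A A' : C2 → Matrix (Fin n) (Fin n) ℂ} {z : C2} (h : A =ᶠ[𝓝 z] A')
    (i : Fin 2) : dzM i A z = dzM i A' z := by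
  ext p q
  exact dz_congr (h.mono fun w hw => by rw [hw]) i

theorem dzM_mul_comp {n : ℕ} {A G : C2 → Matrix (Fin n) (Fin n) ℂ} {f : C2 → C2} {z : C2}
    (hA : ∀ p q, DifferentiableAt ℂ (fun w => A w p q) (f z))
    (hG : ∀ p q, DifferentiableAt ℂ (fun w => G w p q) z) (hf : DifferentiableAt ℂ f z)
    (i : Fin 2) :
    dzM i (fun y => A (f y) * G y) z =
      (∑ p, dz i (fun y => f y p) z • dzM p A (f z)) * G z + A (f z) * dzM i G z := by
  ext p q
  have hA' : ∀ k, DifferentiableAt ℝ (fun y => A (f y) p k) z := fun k =>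
    ((hA p k).comp z hf).restrictScalars ℝ
  have hG' : ∀ k, DifferentiableAt ℝ (fun y => G y k q) z := fun k =>
    (hG k q).restrictScalars ℝ
  have e1 : dz i (fun y => (A (f y) * G y) p q) z =
      ∑ k, dz i (fun y => A (f y) p k * G y k q) z := by
    rw [← dz_sum (f := fun k y => A (f y) p k * G y k q) Finset.univ
      (fun k _ => (hA' k).mul (hG' k))]
    rfl
  have e2 : ∀ k, dz i (fun y => A (f y) p k) z =
      ∑ m, dz i (fun y => f y m) z * dz m (fun w => A w p k) (f z) := by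
    intro k
    have h := dz_comp (f := fun w => A w p k) ((hA p k).restrictScalars ℝ) hf i
    rw [h]
    refine Finset.sum_congr rfl fun m _ => ?_
    rw [smul_eq_mul]
  have e0 : dzM i (fun y => A (f y) * G y) z p q = dz i (fun y => (A (f y) * G y) p q) z := rfl
  rw [e0, e1, Matrix.add_apply, Matrix.mul_apply, Matrix.mul_apply, ← Finset.sum_add_distrib]
  refine Finset.sum_congr rfl fun k _ => ?_
  rw [dz_mul (hA' k) (hG' k), e2 k]
  simp only [dzM, Matrix.sum_apply, Matrix.smul_apply, Matrix.of_apply, smul_eq_mul]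
  ring

/-- `cov` of a product `A (f y) * G y` -/
theorem cov_mul_comp {n : ℕ} {A G F : C2 → Matrix (Fin n) (Fin n) ℂ} {f : C2 → C2} {z : C2}
    (hF : F =ᶠ[𝓝 z] fun y => A (f y) * G y)
    (hA : ∀ p q, DifferentiableAt ℂ (fun w => A w p q) (f z))
    (hG : ∀ p q, DifferentiableAt ℂ (fun w => G w p q) z) (hf : DifferentiableAt ℂ f z)
    (h0 : (A (f z)).det ≠ 0) (i : Fin 2) :
    cov F z i - cov G z i =
      ∑ p, dz i (fun y => f y p) z • ((G z)⁻¹ * cov A (f z) p * G z) := by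
  have e1 : (A (f z))⁻¹ * A (f z) = 1 := Matrix.nonsing_inv_mul _ (isUnit_iff_ne_zero.2 h0)
  rw [cov_eq, cov_eq, dzM_congr hF, hF.self_of_nhds, dzM_mul_comp hA hG hf, Matrix.mul_inv_rev,
    Matrix.mul_add]
  have e2 : (G z)⁻¹ * (A (f z))⁻¹ * (A (f z) * dzM i G z) = (G z)⁻¹ * dzM i G z := by
    rw [Matrix.mul_assoc, ← Matrix.mul_assoc (A (f z))⁻¹, e1, Matrix.one_mul]
  rw [e2, add_sub_cancel_right]
  simp only [cov_eq, Finset.sum_mul, Finset.mul_sum, Matrix.smul_mul, Matrix.mul_smul,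
    Matrix.mul_assoc]

/-! ### the forms under a linear change of variables -/

/-- `x'_i = ∑_p J_pi P⁻¹ x_p P` -/
def chg {n : ℕ} (J : Matrix (Fin 2) (Fin 2) ℂ) (P : Matrix (Fin n) (Fin n) ℂ) (x : MCov n) :
    MCov n := fun i => ∑ p, J p i • (P⁻¹ * x p * P)

theorem tc_chg {n : ℕ} (J : Matrix (Fin 2) (Fin 2) ℂ) {P : Matrix (Fin n) (Fin n) ℂ}
    (hP : P.det ≠ 0) (x : MCov n) (i : Fin 2) : tc (chg J P x) i = ∑ p, J p i * tc x p := by
  have e1 : P * P⁻¹ = 1 := Matrix.mul_nonsing_inv _ (isUnit_iff_ne_zero.2 hP)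
  simp only [tc, chg, Matrix.trace_sum, Matrix.trace_smul, smul_eq_mul]
  refine Finset.sum_congr rfl fun p _ => ?_
  rw [Matrix.mul_assoc, Matrix.trace_mul_comm, Matrix.mul_assoc, e1, Matrix.mul_one]

theorem w2_chg (J : Matrix (Fin 2) (Fin 2) ℂ) (x y : Fin 2 → ℂ) :
    w2 (fun i => ∑ p, J p i * x p) (fun i => ∑ p, J p i * y p) = J.det * w2 x y := by
  simp only [w2, Fin.sum_univ_two, Matrix.det_fin_two]
  ring

theorem tw_chg {n : ℕ} (J : Matrix (Fin 2) (Fin 2) ℂ) {P : Matrix (Fin n) (Fin n) ℂ}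
    (hP : P.det ≠ 0) (x y : MCov n) : tw (chg J P x) (chg J P y) = J.det * tw x y := by
  have e1 : P * P⁻¹ = 1 := Matrix.mul_nonsing_inv _ (isUnit_iff_ne_zero.2 hP)
  have e2 : ∀ M N : Matrix (Fin n) (Fin n) ℂ,
      ((P⁻¹ * M * P) * (P⁻¹ * N * P)).trace = (M * N).trace := by
    intro M N
    have : (P⁻¹ * M * P) * (P⁻¹ * N * P) = P⁻¹ * (M * ((P * P⁻¹) * (N * P))) := by
      simp only [Matrix.mul_assoc]
    rw [this, e1, Matrix.one_mul, Matrix.trace_mul_comm, Matrix.mul_assoc, Matrix.mul_assoc, e1,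
      Matrix.mul_one]
  simp only [tw, chg, Fin.sum_univ_two, Matrix.add_mul, Matrix.mul_add, Matrix.trace_sub,
    Matrix.trace_add, Matrix.smul_mul, Matrix.mul_smul, Matrix.trace_smul, smul_eq_mul, e2,
    Matrix.det_fin_two]
  ring

/-- the Riemann-Roch form under the change of charts -/
theorem Rd_chg {r : ℕ} (J : Matrix (Fin 2) (Fin 2) ℂ) {P : Matrix (Fin 2) (Fin 2) ℂ}
    {Q : Matrix (Fin r) (Fin r) ℂ} (hP : P.det ≠ 0) (hQ : Q.det ≠ 0) (α α' : MCov 2)
    (ε ε' : MCov r) :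
    Rd r (chg J P α) (chg J P α') (chg J Q ε) (chg J Q ε') = J.det * Rd r α α' ε ε' := by
  have e1 : ∀ x : MCov 2, tc (chg J P x) = fun i => ∑ p, J p i * tc x p := fun x =>
    funext fun i => tc_chg J hP x i
  have e2 : ∀ x : MCov r, tc (chg J Q x) = fun i => ∑ p, J p i * tc x p := fun x =>
    funext fun i => tc_chg J hQ x i
  simp only [Rd, e1, e2, w2_chg, tw_chg J hP, tw_chg J hQ]
  ring

theorem alt_Rd (r : ℕ) : Alt2 (MCov 2 × MCov r) fun x y => Rd r x.1 y.1 x.2 y.2 where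
  subl x x' y := by
    simp only [Rd, Prod.fst_sub, Prod.snd_sub, alt_tw.subl, tc_sub, alt_w2.subl]
    ring
  swap x y := by
    simp only [Rd, tw_swap x.1 y.1, tw_swap x.2 y.2, w2_swap (tc x.1) (tc y.1),
      w2_swap (tc x.2) (tc y.1), w2_swap (tc x.1) (tc y.2)]
    ring

/-- the sum over the partition of unity: `l i` stands for `∂̄ρ_i` -/
theorem sum_three {ι A : Type*} [Fintype ι] [AddCommGroup A] {T : A → A → ℂ} (hT : Alt2 A T)
    (g : ι → A) (ρ : ι → ℂ) (l : ι → Fin 2 → ℂ) (hρ : ∑ i, ρ i = 1) (hl : ∀ j, ∑ i, l i j = 0) :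
    -∑ i, ∑ j, ∑ k, ρ k * w2 (l j) (l i) * T (g j - g i) (g k - g i) =
      ∑ j, ∑ k, w2 (l j) (l k) * T (g j) (g k) := by
  have hw1 : ∀ k, ∑ j, w2 (l j) (l k) = 0 := by
    intro k
    simp only [w2, Finset.sum_sub_distrib, ← Finset.sum_mul, hl]
    ring
  have hw2 : ∀ j, ∑ k, w2 (l j) (l k) = 0 := by
    intro j
    simp only [w2, Finset.sum_sub_distrib, ← Finset.mul_sum, hl]
    ring
  have h1 : ∀ i j k, ρ k * w2 (l j) (l i) * T (g j - g i) (g k - g i) =
      w2 (l j) (l i) * (ρ k * T (g j) (g k)) - ρ k * (w2 (l j) (l i) * T (g j) (g i)) -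
        w2 (l j) (l i) * (ρ k * T (g i) (g k)) := by
    intro i j k
    rw [hT.subl, hT.subr, hT.subr, hT.self]
    ring
  simp only [h1, Finset.sum_sub_distrib]
  have h2 : ∑ i, ∑ j, ∑ k, w2 (l j) (l i) * (ρ k * T (g j) (g k)) = 0 := by
    rw [Finset.sum_comm]
    refine Finset.sum_eq_zero fun j _ => ?_
    simp only [← Finset.mul_sum]
    rw [← Finset.sum_mul, hw2, zero_mul]
  have h3 : ∑ i, ∑ j, ∑ k, w2 (l j) (l i) * (ρ k * T (g i) (g k)) = 0 := by
    refine Finset.sum_eq_zero fun i _ => ?_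
    simp only [← Finset.mul_sum]
    rw [← Finset.sum_mul, hw1, zero_mul]
  have h4 : ∑ i, ∑ j, ∑ k, ρ k * (w2 (l j) (l i) * T (g j) (g i)) =
      ∑ i, ∑ j, w2 (l j) (l i) * T (g j) (g i) := by
    refine Finset.sum_congr rfl fun i _ => Finset.sum_congr rfl fun j _ => ?_
    rw [← Finset.sum_mul, hρ, one_mul]
  rw [h2, h3, h4, zero_sub, sub_zero, neg_neg, Finset.sum_comm]

end Vale.Agent.P267.H433
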