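import Vale.Agent.P267.H433.Gf0
import Vale.Agent.P267.H462.Gl
import Vale.Agent.P267.H551.TrCong
import Vale.Agent.P267.H551.OutT

/-!
# P267 / H433 (F2 of RRC-GLUE), part 1: the value of `r` for the transitions `TT`

`tr_r_TT`: `trc (r (TT b c, TT a b) (x,x)) = Rd r (cov (J a b) x) (cov (J a c) x) (cov (E a b) x)
(cov (E a c) x)` for `x` in the intersection of the three charts.
-/

set_option linter.unusedSectionVars false

open scoped Manifold ContDiff ComplexConjugate Matrix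
open Set Filter Topology Metric

noncomputable section

namespace Vale.Agent.P267.H433

open Vale.Agent.P267.FL Vale.Agent.P267.RR Vale.Agent.P267.H509 Vale.Agent.P267.H462
open Vale.Agent.P267.H551

/-! ### restriction and congruence -/

namespace Tr

variable {A : Type} [NormedRing A] [NormedAlgebra ℂ A]

theorem On.mono {T : Tr A} {D D' : Set VV} {Ω Ω' : Set V2} (h : T.On D Ω) (hD' : StarD D')
    (hDD : D' ⊆ D) (hΩ' : IsOpen Ω') (hΩ : Ω' ⊆ Ω) (hs : ∀ p ∈ D', p.2 ∈ Ω') : T.On D' Ω' where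
  star := hD'
  isOpen := hΩ'
  snd_mem := hs
  hf := h.hf.mono hΩ
  he := h.he.mono hΩ
  hei := h.hei.mono hΩ
  e_ei y hy := h.e_ei y (hΩ hy)
  ei_e y hy := h.ei_e y (hΩ hy)
  dM_ne p hp := h.dM_ne p (hDD hp)

theorem df_congr {T T' : Tr A} {x : V2} (h : T.f =ᶠ[𝓝 x] T'.f) (i k : Fin 2) :
    T.df i k =ᶠ[𝓝 x] T'.df i k := by
  filter_upwards [h.eventuallyEq_nhds] with y hy
  simp only [df, hy.fderiv_eq]

theorem al_congr {T T' : Tr A} {x : V2} (h : T.f =ᶠ[𝓝 x] T'.f) (k : Fin 2) :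
    T.al k x = T'.al k x := by
  have e1 : T.Jm x = T'.Jm x := by
    ext i l
    exact (df_congr h i l).self_of_nhds
  have e2 : T.dJm k x = T'.dJm k x := by
    ext i l
    simp only [dJm, Matrix.of_apply, (df_congr h i l).fderiv_eq]
  rw [al, al, e1, e2]

theorem ep_congr {T T' : Tr A} {x : V2} (h : T.e =ᶠ[𝓝 x] T'.e) (h' : T.ei x = T'.ei x)
    (k : Fin 2) : T.ep k x = T'.ep k x := by
  rw [ep, ep, h', h.fderiv_eq]

theorem dens_congr {τ : A →ₗ[ℂ] ℂ} {T U U' : Tr A} {x : V2} (h : ∀ k, U.al k x = U'.al k x)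
    (h' : ∀ k, U.ep k x = U'.ep k x) : dens τ T U x = dens τ T U' x := by
  simp only [dens, h, h']

end Tr

/-! ### `mL` -/

theorem mL_mul {r : ℕ} (M N : Matrix (Fin r) (Fin r) ℂ) : mL (M * N) = mL M * mL N := by
  ext v i
  simp only [mL_apply, mul_apply_eq_comp, Matrix.mulVec_mulVec]

theorem trc_mL {r : ℕ} (M : Matrix (Fin r) (Fin r) ℂ) : trc (Fin r → ℂ) (mL M) = M.trace := by
  rw [trc_apply]
  have e : ((mL M : (Fin r → ℂ) →L[ℂ] (Fin r → ℂ)) : (Fin r → ℂ) →ₗ[ℂ] (Fin r → ℂ)) =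
      Matrix.toLin' M := by
    ext v i
    simp [mL]
  rw [e, Matrix.trace_toLin'_eq]

theorem trc_one {r : ℕ} : trc (Fin r → ℂ) (1 : EA r) = r := by
  rw [trc_apply]
  have e : ((1 : EA r) : (Fin r → ℂ) →ₗ[ℂ] (Fin r → ℂ)) = LinearMap.id := rfl
  rw [e, LinearMap.trace_id]
  simp

variable {X : Type*} [TopologicalSpace X] [ChartedSpace C2 X] [IsManifold 𝓘(ℂ, C2) ω X]
  {A : FinAt X} {r : ℕ} {B : Bun A r}

/-! ### the forms `al` and `ep` of `TT` -/

theorem TT_df {a b : Fin A.N} {y : C2} (hy : y ∈ A.ov a b) (i k : Fin 2) :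
    (TT B a b).df i k y = A.J a b y i k := by
  have h1 : DifferentiableAt ℂ (A.tau a b) y := (FinAt.tau_analyticAt hy).differentiableAt
  have h2 : DifferentiableAt ℂ (fun z => A.tau a b z i) y := differentiableAt_pi.1 h1 i
  rw [FinAt.J_apply hy, dz_of_hol h2]
  have h3 := (ContinuousLinearMap.proj (R := ℂ) (φ := fun _ : Fin 2 => ℂ) i).hasFDerivAt.comp y
    h1.hasFDerivAt
  have h4 : HasFDerivAt (fun z => A.tau a b z i) _ y := h3
  rw [h4.fderiv]
  rfl

theorem TT_df_eventually {a b : Fin A.N} {y : C2} (hy : y ∈ A.ov a b) (i k : Fin 2) :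
    (TT B a b).df i k =ᶠ[𝓝 y] fun z => A.J a b z i k := by
  filter_upwards [(A.isOpen_ov a b).mem_nhds hy] with z hz using TT_df hz i k

theorem J_diff {a b : Fin A.N} {y : C2} (hy : y ∈ A.ov a b) (i k : Fin 2) :
    DifferentiableAt ℂ (fun z => A.J a b z i k) y := (FinAt.J_analyticAt hy i k).differentiableAt

theorem TT_al {a b : Fin A.N} {y : C2} (hy : y ∈ A.ov a b) (k : Fin 2) :
    (TT B a b).al k y = cov (A.J a b) y k := by
  have e1 : (TT B a b).Jm y = A.J a b y := by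
    ext i l
    exact TT_df hy i l
  have e2 : (TT B a b).dJm k y = dzM k (A.J a b) y := by
    ext i l
    simp only [Tr.dJm, dzM, Matrix.of_apply, (TT_df_eventually hy i l).fderiv_eq]
    rw [dz_of_hol (J_diff hy i l)]
    rfl
  rw [Tr.al, cov_eq, e1, e2]

theorem E_diff (B : Bun A r) {a b : Fin A.N} {y : C2} (hy : y ∈ A.ov a b) (p q : Fin r) :
    DifferentiableAt ℂ (fun z => B.E a b z p q) y := (B.hol a b y hy p q).differentiableAt

theorem E_inv_mul (B : Bun A r) {a b : Fin A.N} {y : C2} (hy : y ∈ A.ov a b) :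
    B.E b a (A.tau a b y) * B.E a b y = 1 := by
  rw [B.comp a b a y hy (FinAt.mem_ov_self hy.1), B.self a y hy.1]

theorem E_inv (B : Bun A r) {a b : Fin A.N} {y : C2} (hy : y ∈ A.ov a b) :
    B.E b a (A.tau a b y) = (B.E a b y)⁻¹ :=
  (Matrix.inv_eq_left_inv (E_inv_mul B hy)).symm

theorem E_det (B : Bun A r) {a b : Fin A.N} {y : C2} (hy : y ∈ A.ov a b) :
    (B.E a b y).det ≠ 0 := by
  intro h0
  have h1 := congrArg Matrix.det (E_inv_mul B hy)
  rw [Matrix.det_mul, h0, mul_zero, Matrix.det_one] at h1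
  exact zero_ne_one h1

theorem TT_fderiv_e {a b : Fin A.N} {y : C2} (hy : y ∈ A.ov a b)
    (he : DifferentiableAt ℂ (TT B a b).e y) (k : Fin 2) :
    fderiv ℂ (TT B a b).e y (ee k) = mL (dzM k (B.E a b) y) := by
  ext v i
  have h1 := he.hasFDerivAt.clm_apply (hasFDerivAt_const v y)
  have h2 := (ContinuousLinearMap.proj (R := ℂ) (φ := fun _ : Fin r => ℂ) i).hasFDerivAt.comp y h1
  have h3 : HasFDerivAt (fun z => (TT B a b).e z v i) _ y := h2
  have h4 : (fun z => (TT B a b).e z v i) = fun z => ∑ j, B.E a b z i j * v j := by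
    funext z
    rfl
  have h5 : HasFDerivAt (fun z => ∑ j, B.E a b z i j * v j)
      (∑ j, (v j) • fderiv ℂ (fun z => B.E a b z i j) y) y :=
    HasFDerivAt.fun_sum fun j _ => (E_diff B hy i j).hasFDerivAt.mul_const (v j)
  rw [h4] at h3
  have h6 := congrArg (fun L => L (ee k)) (h3.unique h5)
  simp only [ContinuousLinearMap.comp_apply, sum_apply, smul_apply,
    smul_eq_mul] at h6
  have h7 : fderiv ℂ (TT B a b).e y (ee k) v i = ∑ j, v j *
      fderiv ℂ (fun z => B.E a b z i j) y (ee k) := by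
    rw [← h6]
    simp
  rw [h7, mL_apply]
  simp only [Matrix.mulVec, dotProduct, dzM, Matrix.of_apply]
  refine Finset.sum_congr rfl fun j _ => ?_
  rw [dz_of_hol (E_diff B hy i j), mul_comm]
  rfl

theorem TT_ep {a b : Fin A.N} {y : C2} (hy : y ∈ A.ov a b)
    (he : DifferentiableAt ℂ (TT B a b).e y) (k : Fin 2) :
    (TT B a b).ep k y = mL (cov (B.E a b) y k) := by
  have e1 : (TT B a b).ei y = mL (B.E b a (A.tau a b y)) := rfl
  rw [Tr.ep, TT_fderiv_e hy he, e1, E_inv B hy, ← mL_mul, cov_eq]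

/-! ### the composition -/

/-- the composition of `TT a b` and `TT b c` near a point -/
theorem compOn_near (G : Gl B) {a b c : Fin A.N} {x : C2} (hb : x ∈ A.ov a b)
    (hc : x ∈ A.ov a c) : ∃ (D : Set VV) (Ω : Set V2), (x, x) ∈ D ∧
      Tr.CompOn (TT B b c) (TT B a b) D (G.D b c) Ω (A.ov b c) := by
  have hbc : A.tau a b x ∈ A.ov b c := FinAt.tau_mem_ov hb hc
  have cf : ContinuousAt (A.tau a b) x := (FinAt.tau_analyticAt hb).continuousAt
  have n1 : G.D a b ∈ 𝓝 (x, x) := (G.D_on a b).oD.mem_nhds (G.D_diag a b x hb)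
  have n2 : G.D a c ∈ 𝓝 (x, x) := (G.D_on a c).oD.mem_nhds (G.D_diag a c x hc)
  have n3 : {p : VV | (A.tau a b p.1, A.tau a b p.2) ∈ G.D b c} ∈ 𝓝 (x, x) := by
    have h1 : ContinuousAt (fun p : VV => (A.tau a b p.1, A.tau a b p.2)) (x, x) :=
      (cf.comp' (x := (x, x)) continuousAt_fst).prodMk (cf.comp' (x := (x, x)) continuousAt_snd)
    exact h1.preimage_mem_nhds ((G.D_on b c).oD.mem_nhds (G.D_diag b c _ hbc))
  obtain ⟨ε, hε, hsub⟩ := Metric.mem_nhds_iff.1 (inter_mem (inter_mem n1 n2) n3)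
  have hball : ∀ p ∈ ball x ε ×ˢ ball x ε, p ∈ G.D a b ∧ p ∈ G.D a c ∧
      (A.tau a b p.1, A.tau a b p.2) ∈ G.D b c := by
    intro p hp
    rw [ball_prod_same] at hp
    have := hsub hp
    exact ⟨this.1.1, this.1.2, this.2⟩
  have hov : ∀ y ∈ ball x ε, y ∈ A.ov a b ∧ y ∈ A.ov a c := by
    intro y hy
    have h1 := hball (y, y) ⟨hy, hy⟩
    exact ⟨(G.D_sub a b h1.1).1, (G.D_sub a c h1.2.1).1⟩
  have hstar : StarD (ball x ε ×ˢ ball x ε) := starD_prod isOpen_ball (convex_ball x ε)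
  have hT : (TT B a b).On (ball x ε ×ˢ ball x ε) (ball x ε) :=
    Tr.On.mono (G.D_on a b) hstar (fun p hp => (hball p hp).1) isOpen_ball
      (fun y hy => (hov y hy).1) fun p hp => hp.2
  refine ⟨ball x ε ×ˢ ball x ε, ball x ε, ⟨mem_ball_self hε, mem_ball_self hε⟩,
    Tr.CompOn.mk' hT (G.D_on b c) (fun p hp => (hball p hp).2.2)
      (fun y hy => FinAt.tau_mem_ov (hov y hy).1 (hov y hy).2) fun p hp => ?_⟩
  have h1 : EqOn ((TT B b c).comp (TT B a b)).f (TT B a c).f (ball x ε) := fun y hy =>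
    FinAt.tau_comp c (hov y hy).1
  rw [tr_congr_dM isOpen_ball hstar (fun p hp => hp.2) h1 hp]
  exact (G.D_on a c).dM_ne p (hball p hp).2.1

theorem TT_e_diff (G : Gl B) {a b : Fin A.N} {y : C2} (hy : y ∈ A.ov a b) :
    DifferentiableAt ℂ (TT B a b).e y :=
  dAt (A.isOpen_ov a b) (G.D_on a b).he hy

/-- the trace, as a linear map -/
def tau0 (r : ℕ) : EA r →ₗ[ℂ] ℂ := (trc (Fin r → ℂ) : EA r →ₗ[ℂ] ℂ)

theorem tau0_apply {r : ℕ} (f : EA r) : tau0 r f = trc (Fin r → ℂ) f := rfl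

theorem tau0_mL {r : ℕ} (M : Matrix (Fin r) (Fin r) ℂ) : tau0 r (mL M) = M.trace := trc_mL M

/-- the density of two transitions -/
theorem dens_TT (G : Gl B) {a b c : Fin A.N} {x : C2} (hb : x ∈ A.ov a b) (hc : x ∈ A.ov a c) :
    Tr.dens (tau0 r) (TT B a b) (TT B a c) x =
      Rd r (cov (A.J a b) x) (cov (A.J a c) x) (cov (B.E a b) x) (cov (B.E a c) x) := by
  have e1 : tau0 r 1 = (r : ℂ) := trc_one
  simp only [Tr.dens, TT_al hb, TT_al hc, TT_ep hb (TT_e_diff G hb), TT_ep hc (TT_e_diff G hc),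
    ← mL_mul, map_sub, tau0_mL, e1, Rd, w2, tw, tc, Matrix.trace_sub]

/-- **the trace of `r` for the transitions `TT`** -/
theorem tr_r_TT (G : Gl B) {a b c : Fin A.N} {x : C2} (hb : x ∈ A.ov a b) (hc : x ∈ A.ov a c) :
    trc (Fin r → ℂ) (Tr.r (TT B b c) (TT B a b) (x, x)) =
      Rd r (cov (A.J a b) x) (cov (A.J a c) x) (cov (B.E a b) x) (cov (B.E a c) x) := by
  obtain ⟨D, Ω, hx, h⟩ := compOn_near G hb hc
  rw [← tau0_apply, h.tr_r_diag hx (tau0 r) (fun f g => trc_comm f g), ← dens_TT G hb hc]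
  have hn : A.ov a b ∩ A.ov a c ∈ 𝓝 x :=
    inter_mem ((A.isOpen_ov a b).mem_nhds hb) ((A.isOpen_ov a c).mem_nhds hc)
  refine Tr.dens_congr (fun k => Tr.al_congr ?_ k) fun k => Tr.ep_congr ?_ ?_ k
  · filter_upwards [hn] with y hy using FinAt.tau_comp c hy.1
  · filter_upwards [hn] with y hy
    change mL (B.E b c (A.tau a b y)) * mL (B.E a b y) = mL (B.E a c y)
    rw [← mL_mul, B.comp a b c y hy.1 hy.2]
  · change mL (B.E b a (A.tau a b x)) * mL (B.E c b (A.tau b c (A.tau a b x))) =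
      mL (B.E c a (A.tau a c x))
    rw [← mL_mul, FinAt.tau_comp c hb, ← FinAt.tau_comp b hc,
      B.comp c b a _ (FinAt.tau_mem_ov hc hb) (FinAt.tau_mem hc)]

end Vale.Agent.P267.H433
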