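import Vale.Agent.P267.H433.Gf1

/-!
# P267 / H433 (F2 of RRC-GLUE), part 2: the density of the glued parametrix

`glue_todd`: `-∑ a' b c, [z ∈ ov a a'] |det J|² cf a' b c (τz) trc (r (TT b c, TT a' b) + r (TT c a',
TT a' c)) (τz, τz) = todd B a z`.
-/

set_option linter.unusedSectionVars false

open scoped Manifold ContDiff ComplexConjugate Matrix
open Set Filter Topology Metric

noncomputable section

namespace Vale.Agent.P267.H433

open Vale.Agent.P267.FL Vale.Agent.P267.RR Vale.Agent.P267.H509 Vale.Agent.P267.H462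
open Vale.Agent.P267.H551

variable {X : Type*} [TopologicalSpace X] [ChartedSpace C2 X] [IsManifold 𝓘(ℂ, C2) ω X]
  {A : FinAt X} {r : ℕ} {B : Bun A r}

theorem dr_off_ov {a b : Fin A.N} {z : C2} (hz : z ∈ A.O a) (h : z ∉ A.ov a b) (i : Fin 2) :
    dr A b a z i = 0 :=
  dr_zero hz (fun hs => h ⟨hz, A.rho_supp b hs⟩) i

theorem rc_off_ov {a b : Fin A.N} {z : C2} (hz : z ∈ A.O a) (h : z ∉ A.ov a b) :
    rc A b a z = 0 :=
  rc_zero hz fun hs => h ⟨hz, A.rho_supp b hs⟩

/-- the difference of the cocycles, tangent bundle -/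
theorem cov_J_change {a a' b : Fin A.N} {z : C2} (h' : z ∈ A.ov a a') (hb : z ∈ A.ov a b) :
    cov (A.J a b) z - cov (A.J a a') z =
      chg (A.J a a' z) (A.J a a' z) (cov (A.J a' b) (A.tau a a' z)) := by
  have hw : A.tau a a' z ∈ A.ov a' b := FinAt.tau_mem_ov h' hb
  have hF : A.J a b =ᶠ[𝓝 z] fun y => A.J a' b (A.tau a a' y) * A.J a a' y := by
    filter_upwards [(A.isOpen_ov a b).mem_nhds hb, (A.isOpen_ov a a').mem_nhds h'] with y hy hy'
    rw [FinAt.J_tau b hy']
    exact jacM_comp (A.he a) (A.he a') (A.he b) (FinAt.symm_mem_source hy.1)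
      (FinAt.symm_mem_source' hy') (FinAt.symm_mem_source' hy)
  funext i
  rw [Pi.sub_apply, cov_mul_comp hF (fun p q => J_diff hw p q) (fun p q => J_diff h' p q)
    (FinAt.tau_analyticAt h').differentiableAt (FinAt.J_det_ne hw) i]
  simp only [chg]
  refine Finset.sum_congr rfl fun p _ => ?_
  rw [FinAt.J_apply h' p i]

/-- the difference of the cocycles, the bundle `B` -/
theorem cov_E_change (B : Bun A r) {a a' b : Fin A.N} {z : C2} (h' : z ∈ A.ov a a')
    (hb : z ∈ A.ov a b) : cov (B.E a b) z - cov (B.E a a') z =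
      chg (A.J a a' z) (B.E a a' z) (cov (B.E a' b) (A.tau a a' z)) := by
  have hw : A.tau a a' z ∈ A.ov a' b := FinAt.tau_mem_ov h' hb
  have hF : B.E a b =ᶠ[𝓝 z] fun y => B.E a' b (A.tau a a' y) * B.E a a' y := by
    filter_upwards [(A.isOpen_ov a b).mem_nhds hb, (A.isOpen_ov a a').mem_nhds h'] with y hy hy'
    exact (B.comp a a' b y hy' hy).symm
  funext i
  rw [Pi.sub_apply, cov_mul_comp hF (fun p q => E_diff B hw p q) (fun p q => E_diff B h' p q)
    (FinAt.tau_analyticAt h').differentiableAt (E_det B hw) i]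
  simp only [chg]
  refine Finset.sum_congr rfl fun p _ => ?_
  rw [FinAt.J_apply h' p i]

/-- `Rd` in the chart `a'` in terms of the chart `a` -/
theorem Rd_change (B : Bun A r) {a a' b c : Fin A.N} {z : C2} (h' : z ∈ A.ov a a')
    (hb : z ∈ A.ov a b) (hc : z ∈ A.ov a c) :
    (A.J a a' z).det * Rd r (cov (A.J a' b) (A.tau a a' z)) (cov (A.J a' c) (A.tau a a' z))
        (cov (B.E a' b) (A.tau a a' z)) (cov (B.E a' c) (A.tau a a' z)) =
      Rd r (cov (A.J a b) z - cov (A.J a a') z) (cov (A.J a c) z - cov (A.J a a') z)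
        (cov (B.E a b) z - cov (B.E a a') z) (cov (B.E a c) z - cov (B.E a a') z) := by
  rw [cov_J_change h' hb, cov_J_change h' hc, cov_E_change B h' hb, cov_E_change B h' hc,
    Rd_chg _ (FinAt.J_det_ne h') (E_det B h')]

/-- the coefficient -/
theorem cf_change {a a' b c : Fin A.N} {z : C2} (h' : z ∈ A.ov a a') :
    (((‖(A.J a a' z).det‖ ^ 2 : ℝ)) : ℂ) * cf A a' b c (A.tau a a' z) =
      (A.J a a' z).det * (rc A c a z * w2 (dr A b a z) (dr A a' a z)) := by
  have e1 : w2 (dr A b a z) (dr A a' a z) =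
      conj (A.J a a' z).det * w2 (dr A b a' (A.tau a a' z)) (dr A a' a' (A.tau a a' z)) := by
    have h0 : ∀ d : Fin A.N, dr A d a z = fun i => ∑ p, conj (A.J a a' z p i) *
        dr A d a' (A.tau a a' z) p := fun d => funext fun i => (dr_tau h' i).symm
    rw [h0 b, h0 a']
    have h1 := w2_chg ((A.J a a' z).map conj) (dr A b a' (A.tau a a' z))
      (dr A a' a' (A.tau a a' z))
    have h2 : ((A.J a a' z).map conj).det = conj (A.J a a' z).det := by
      simp [Matrix.det_fin_two]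
    rw [h2] at h1
    exact h1
  have e2 : (((‖(A.J a a' z).det‖ ^ 2 : ℝ)) : ℂ) = (A.J a a' z).det * conj (A.J a a' z).det := by
    rw [Complex.mul_conj, Complex.normSq_eq_norm_sq]
  rw [e1, e2, cf, rc_tau h']
  simp only [w2]
  ring

/-- one term of the sum -/
theorem term_eq (G : Gl B) {a a' b c : Fin A.N} {z : C2} (hz : z ∈ A.O a)
    [Decidable (z ∈ A.ov a a')] :
    (if z ∈ A.ov a a' then ((‖(A.J a a' z).det‖ ^ 2 : ℝ) : ℂ) *
      (cf A a' b c (A.tau a a' z) *
        (trc (Fin r → ℂ) (Tr.r (TT B b c) (TT B a' b) (A.tau a a' z, A.tau a a' z)) +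
          trc (Fin r → ℂ) (Tr.r (TT B c a') (TT B a' c) (A.tau a a' z, A.tau a a' z)))) else 0) =
      rc A c a z * w2 (dr A b a z) (dr A a' a z) *
        Rd r (cov (A.J a b) z - cov (A.J a a') z) (cov (A.J a c) z - cov (A.J a a') z)
          (cov (B.E a b) z - cov (B.E a a') z) (cov (B.E a c) z - cov (B.E a a') z) := by
  by_cases h' : z ∈ A.ov a a'
  swap
  · rw [if_neg h']
    have h0 : w2 (dr A b a z) (dr A a' a z) = 0 := by
      simp only [w2, dr_off_ov hz h']
      ring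
    rw [h0, mul_zero, zero_mul]
  rw [if_pos h', ← mul_assoc, cf_change h']
  by_cases hb : z ∈ A.ov a b
  swap
  · have h0 : w2 (dr A b a z) (dr A a' a z) = 0 := by
      simp only [w2, dr_off_ov hz hb]
      ring
    rw [h0, mul_zero, mul_zero, zero_mul, zero_mul]
  by_cases hc : z ∈ A.ov a c
  swap
  · rw [rc_off_ov hz hc, zero_mul, zero_mul, mul_zero, zero_mul]
  have wb : A.tau a a' z ∈ A.ov a' b := FinAt.tau_mem_ov h' hb
  have wc : A.tau a a' z ∈ A.ov a' c := FinAt.tau_mem_ov h' hc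
  have wa : A.tau a a' z ∈ A.ov a' a' := FinAt.tau_mem_ov h' h'
  have z1 : cov (A.J a' a') (A.tau a a' z) = 0 := by
    have h1 := cov_J_change h' h'
    have h2 : A.J a' a' =ᶠ[𝓝 (A.tau a a' z)] fun _ => 1 := by
      filter_upwards [(A.isOpen_O a').mem_nhds wa.1] with y hy
      exact jacM_self (FinAt.symm_mem_source hy)
    rw [cov_congr h2, cov_const]
  have z2 : cov (B.E a' a') (A.tau a a' z) = 0 := by
    have h2 : B.E a' a' =ᶠ[𝓝 (A.tau a a' z)] fun _ => 1 := by
      filter_upwards [(A.isOpen_O a').mem_nhds wa.1] with y hy using B.self a' y hy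
    rw [cov_congr h2, cov_const]
  have z3 : Rd r (cov (A.J a' c) (A.tau a a' z)) 0 (cov (B.E a' c) (A.tau a a' z)) 0 = 0 := by
    simp only [Rd, w2, tw, tc, Pi.zero_apply, mul_zero, Matrix.trace_zero, sub_self, add_zero]
  rw [tr_r_TT G wb wc, tr_r_TT G wc wa, z1, z2, z3, add_zero, ← Rd_change B h' hb hc]
  ring

/-- **(F2)**: the density of the glued parametrix is the Riemann-Roch density -/
theorem glue_todd (G : Gl B) {a : Fin A.N} {z : C2} (hz : z ∈ A.O a)
    [∀ a' : Fin A.N, Decidable (z ∈ A.ov a a')] :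
    -∑ a', ∑ b, ∑ c, (if z ∈ A.ov a a' then ((‖(A.J a a' z).det‖ ^ 2 : ℝ) : ℂ) *
      (cf A a' b c (A.tau a a' z) *
        (trc (Fin r → ℂ) (Tr.r (TT B b c) (TT B a' b) (A.tau a a' z, A.tau a a' z)) +
          trc (Fin r → ℂ) (Tr.r (TT B c a') (TT B a' c) (A.tau a a' z, A.tau a a' z)))) else 0) =
      todd B a z := by
  have h1 := sum_three (alt_Rd r) (fun b => (cov (A.J a b) z, cov (B.E a b) z))
    (fun c => rc A c a z) (fun b => dr A b a z) (rc_sum hz) fun j => dr_sum hz j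
  simp only [term_eq G hz]
  simp only [Prod.fst_sub, Prod.snd_sub] at h1
  rw [h1, todd, H509.dens]
  have h2 : ∀ b, dbl (fun b x => (A.rho b x : ℂ)) (A.e a) z b = dr A b a z := by
    intro b
    funext j
    have h3 : rc A b a =ᶠ[𝓝 z] fun w => (A.rho b ((A.e a).symm w) : ℂ) := by
      filter_upwards [(A.isOpen_O a).mem_nhds hz] with w hw using rc_of_mem hw
    rw [dbl, dr_of_mem hz, dzb_congr h3]
  simp only [h2]

/-- **(F2)**, in the form of `exists_PS` -/
theorem glue_dens (G : Gl B) {a : Fin A.N} {z : C2} (hz : z ∈ A.O a) (cst : ℝ)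
    [∀ a' : Fin A.N, Decidable (z ∈ A.ov a a')] :
    -∑ a', ∑ b, ∑ c, (if z ∈ A.ov a a' then ((‖(A.J a a' z).det‖ ^ 2 : ℝ) : ℂ) *
      trc (Fin r → ℂ) (((cst : ℂ) * cf A a' b c (A.tau a a' z)) •
        (Tr.r (TT B b c) (TT B a' b) (A.tau a a' z, A.tau a a' z) +
          Tr.r (TT B c a') (TT B a' c) (A.tau a a' z, A.tau a a' z))) else 0) =
      (cst : ℂ) * todd B a z := by
  rw [← glue_todd G hz, mul_neg, Finset.mul_sum]
  congr 1
  refine Finset.sum_congr rfl fun a' _ => ?_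
  rw [Finset.mul_sum]
  refine Finset.sum_congr rfl fun b _ => ?_
  rw [Finset.mul_sum]
  refine Finset.sum_congr rfl fun c _ => ?_
  split_ifs
  · rw [map_smul, map_add, smul_eq_mul]
    ring
  · rw [mul_zero]

end Vale.Agent.P267.H433
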