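import Vale.Agent.P267.H433.Sum
import Vale.Agent.P267.H739.Geo
import Vale.Agent.P267.H826.RingGeo

/-!
# P267, ROUTE S, (C4) (helper433): `SeriesThm`

`seriesThm`: `H¹ = 0` near `supp D_0 ∪ {inner end}`, from `Sol1`, `Sol2` and the collar `Coll`.
-/

set_option linter.unusedSectionVars false

open scoped Manifold ContDiff ComplexConjugate Matrix
open Set Filter Topology

noncomputable section

namespace Vale.Agent.P267.H433

open Vale.Agent.P267.FL Vale.Agent.P267.XT Vale.Agent.P267.H692 Vale.Agent.P267.H739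

variable {M : Type} [TopologicalSpace M] [ChartedSpace C2 M] [IsManifold 𝓘(ℂ, C2) ω M]
variable {ι : Type} [Fintype ι] [DecidableEq ι]
variable {D : XTData M} {L : LB M ι} {a : M → Fin 2 → ℂ} {α : M → EuclideanSpace ℂ ι}

theorem q1_of_sol1 {d : ℝ} (h : ∃ K, 0 ≤ K ∧ Sol1 D d K) : Q1 D d := by
  obtain ⟨K, hK, hs⟩ := h
  refine ⟨K, hK, fun g B hB hg hgb hcl => ?_⟩
  obtain ⟨u, h1, h2, h3⟩ := hs g hg hcl B hgb
  exact ⟨u, h1, h3, h2⟩

theorem q2_of_sol2 {d : ℝ} (h : ∃ K, 0 ≤ K ∧ Sol2 D L a d K) : Q2 D L a d := by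
  obtain ⟨K, hK, hs⟩ := h
  refine ⟨K, hK, fun r B hB hr hrs hrb => ?_⟩
  obtain ⟨v, h1, h2, h3, h4⟩ := hs r hrs hr B hrb
  exact ⟨v, h2, h1, h3, h4⟩

/-- the transition to a chart of the maximal atlas is holomorphic -/
theorem max_hol {P e : Ch M} (hP : P ∈ IsManifold.maximalAtlas 𝓘(ℂ, C2) ω M)
    (he : e ∈ IsManifold.maximalAtlas 𝓘(ℂ, C2) ω M) :
    DifferentiableOn ℂ (fun z => P (e.symm z)) (e.target ∩ e.symm ⁻¹' P.source) := by
  have h := StructureGroupoid.compatible_of_mem_maximalAtlas he hP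
  rw [contDiffGroupoid, mem_groupoid_of_pregroupoid] at h
  have h1 := h.1
  simp only [contDiffPregroupoid, modelWithCornersSelf_coe, modelWithCornersSelf_coe_symm,
    Function.comp_def, id_eq, range_id, inter_univ] at h1
  have h2 : ContDiffOn ℂ ω (fun z => P (e.symm z)) (e.target ∩ e.symm ⁻¹' P.source) := by
    simpa [OpenPartialHomeomorph.trans_source] using h1
  exact h2.differentiableOn (by simp)

namespace Coll

variable (C : Coll D L a α)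

theorem x_cont {p : M} (hp : p ∈ C.N) : ContinuousAt C.x p := (C.x_at p hp).continuousAt

theorem isOpen_inner {τ e' : ℝ} (h1 : C.r₁ < τ) (h2 : τ < C.r₂) : IsOpen (C.inner τ e') := by
  rw [isOpen_iff_mem_nhds]
  rintro p ⟨hp, hx, hr⟩
  have n1 : ∀ᶠ q in 𝓝 p, q ∈ C.N := C.isOpen.mem_nhds hp
  have n2 : ∀ᶠ q in 𝓝 p, ‖C.x q‖ < e' := (x_cont C hp).norm.eventually_lt_const hx
  have n3 : ∀ᶠ q in 𝓝 p, ¬ (q ∈ C.κ.source ∧ τ ≤ ‖C.κ q 0‖) := by
    by_contra hcon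
    exact hr (C.ring_closed τ h1 h2 p hp hcon)
  filter_upwards [n1, n2, n3] with q h1 h2 h3 using ⟨h1, h2, h3⟩

theorem isOpen_rg (P : Ch M) (ε r s : ℝ) : IsOpen (rg P ε r s) := by
  have h : rg P ε r s = P.source ∩ P ⁻¹' {z : C2 | r < ‖z 0‖ ∧ ‖z 0‖ < s ∧ ‖z 1‖ < ε} := by
    ext y
    simp only [rg, mem_ofPred_eq, mem_inter_iff, mem_preimage]
  rw [h]
  refine P.isOpen_inter_preimage ?_
  have c0 : Continuous fun z : C2 => ‖z 0‖ := (continuous_apply 0).norm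
  have c1 : Continuous fun z : C2 => ‖z 1‖ := (continuous_apply 1).norm
  exact (isOpen_lt continuous_const c0).inter ((isOpen_lt c0 continuous_const).inter
    (isOpen_lt c1 continuous_const))

/-- `C.inner s ε` is the union of `C.inner r₁ ε` and the ring `r₀ < |t| < s` -/
theorem inner_eq {ε r₀ r₁ s : ℝ} (h0 : r₀ < r₁) (h1 : r₁ < s) :
    C.inner r₁ ε ∪ rg C.κ ε r₀ s = C.inner s ε := by
  ext p
  constructor
  · rintro (⟨hp, hx, hr⟩ | ⟨hp, hr, hs, he⟩)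
    · exact ⟨hp, hx, fun h => hr ⟨h.1, h1.le.trans h.2⟩⟩
    · refine ⟨C.κ_source hp, ?_, fun h => absurd hs (not_lt.2 h.2)⟩
      rwa [← C.κ_x p hp]
  · rintro ⟨hp, hx, hr⟩
    by_cases h : p ∈ C.κ.source ∧ r₁ ≤ ‖C.κ p 0‖
    · refine Or.inr ⟨h.1, h0.trans_le h.2, lt_of_not_ge fun h' => hr ⟨h.1, h'⟩, ?_⟩
      rw [C.κ_x p h.1]
      exact hx
    · exact Or.inl ⟨hp, hx, h⟩

theorem inner_mono {τ τ' e₁ e₂ : ℝ} (h : τ ≤ τ') (he : e₁ ≤ e₂) :
    C.inner τ e₁ ⊆ C.inner τ' e₂ := fun _ hp =>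
  ⟨hp.1, hp.2.1.trans_le he, fun h' => hp.2.2 ⟨h'.1, h.trans h'.2⟩⟩

/-- the ring geometry -/
theorem ringGeo {ε r₀ r₁ r₂ r₃ r₄ : ℝ} (hε : 0 < ε) (hεe : ε < C.e) (h0 : C.r₁ < r₀)
    (h01 : r₀ < r₁) (h12 : r₁ < r₂) (h23 : r₂ < r₃) (h34 : r₃ < r₄) (h4 : r₄ < C.r₂) :
    RingGeo (C.inner r₁ ε) (C.inner r₄ ε) (C.inner r₃ ε) (rg C.κ ε r₂ r₄) C.κ ε r₀ r₁ r₂ r₃ r₄ where
  ε_pos := hε
  r0_pos := C.r₁_pos.trans h0
  r01 := h01
  r12 := h12
  r23 := h23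
  r34 := h34
  tgt := by
    intro z hz
    rw [C.κ_target]
    exact ⟨h0.trans_le hz.1, hz.2.1.trans_lt h4, hz.2.2.trans_lt hεe⟩
  hol e he := max_hol C.κ_mem (IsManifold.subset_maximalAtlas he)
  hol' e he := max_hol (IsManifold.subset_maximalAtlas he) C.κ_mem
  A_open := isOpen_inner C (h0.trans h01) (h12.trans (h23.trans (h34.trans h4)))
  A_ring y hy hy' := lt_of_not_ge fun h => hy.2.2 ⟨hy'.1, h⟩
  N_eq := (inner_eq C h01 (h12.trans (h23.trans h34))).symm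
  N'_eq := (inner_eq C h01 (h12.trans h23)).symm
  F_eq := rfl

end Coll

variable {i₀ : ι} {R d d' : ℝ}

/-- the data for `StDat.solv` -/
theorem stDat_of (H : XtCone D L a i₀ R α d d') (h1 : ∃ K, 0 ≤ K ∧ Sol1 D d K)
    (h2 : ∃ K, 0 ≤ K ∧ Sol2 D L a d K) (C : Coll D L a α) {ε r₀ r₁ r₂ r₃ r₄ : ℝ} (hε : 0 < ε)
    (hεe : ε < C.e) (h0 : C.r₁ < r₀) (h01 : r₀ < r₁) (h12 : r₁ < r₂) (h23 : r₂ < r₃)
    (h34 : r₃ < r₄) (h4 : r₄ < C.r₂) :
    StDat D L a α d (C.inner r₄ ε) (C.inner r₃ ε) (rg C.κ ε r₂ r₄) C.x C.lam ε := by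
  have hG := Coll.ringGeo C hε hεe h0 h01 h12 h23 h34 h4
  have hN : ∀ y ∈ C.inner r₄ ε, y ∈ C.N := fun y hy => hy.1
  have hopen : IsOpen (C.inner r₄ ε) :=
    Coll.isOpen_inner C (h0.trans (h01.trans (h12.trans (h23.trans h34)))) h4
  refine
    { ε_pos := hε
      N'_open := Coll.isOpen_inner C (h0.trans (h01.trans (h12.trans h23))) (h34.trans h4)
      F_open := Coll.isOpen_rg C.κ ε r₂ r₄
      cover := ?_
      α_reg := H.α_reg
      α_sec := H.α_sec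
      α_hol := H.α_hol
      α_bdd := H.α_bdd
      x_sm := fun y hy => C.x_at y (hN y hy)
      x_hol := fun y hy => C.x_hol y (hN y hy)
      x_lt := fun y hy => hy.2.1
      lam_sm := fun y hy => C.lam_at y (hN y hy)
      lam_sec := fun y hy => C.lam_sec y (hN y hy)
      lam_bd := ?_
      α_eq := fun y hy => C.fac y (hN y hy)
      dense := ?_
      closed := ?_
      f_bd := ?_
      q1 := q1_of_sol1 h1
      q2 := q2_of_sol2 h2
      ring := H826.Ring.ring_of_geo D d hG }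
  · rw [← Coll.inner_eq C h01 (h12.trans (h23.trans h34)), ← Coll.inner_eq C h01 (h12.trans h23),
      union_assoc]
    congr 1
    ext p
    constructor
    · rintro ⟨hp, hr, hs, he⟩
      by_cases h : ‖C.κ p 0‖ < r₃
      · exact Or.inl ⟨hp, hr, h, he⟩
      · exact Or.inr ⟨hp, h23.trans_le (not_lt.1 h), hs, he⟩
    · rintro (⟨hp, hr, hs, he⟩ | ⟨hp, hr, hs, he⟩)
      · exact ⟨hp, hr, hs.trans h34, he⟩
      · exact ⟨hp, h01.trans (h12.trans hr), hs, he⟩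
  · obtain ⟨K, hK, hb⟩ := C.lam_bd
    refine ⟨K, fun y hy => ⟨(hb y (hN y hy)).2, ?_⟩⟩
    have h5 := (hb y (hN y hy)).1
    calc (1 : ℝ) = K * K⁻¹ := (mul_inv_cancel₀ hK.ne').symm
      _ ≤ K * ‖C.lam y‖ := mul_le_mul_of_nonneg_left h5 hK.le
  · intro y hy
    rw [mem_closure_iff]
    intro o ho hyo
    obtain ⟨q, ⟨hqo, hqN⟩, hq⟩ := H.α_dense.inter_open_nonempty (o ∩ C.inner r₄ ε)
      (ho.inter hopen) ⟨y, hyo, hy⟩
    refine ⟨q, hqo, hqN, fun h0 => hq ?_⟩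
    rw [C.fac q (hN q hqN), h0, zero_smul]
  · have h5 : {y | y ∈ C.inner r₄ ε ∧ ‖C.x y‖ ≤ 2 * ε / 3 ∧ y ∉ rg C.κ ε r₂ r₄} =
        {p | p ∈ C.N ∧ ‖C.x p‖ ≤ 2 * ε / 3 ∧ ¬ (p ∈ C.κ.source ∧ r₂ < ‖C.κ p 0‖)} := by
      ext y
      constructor
      · rintro ⟨hy, hx, hr⟩
        refine ⟨hy.1, hx, fun h => hr ⟨h.1, h.2, lt_of_not_ge fun h' => hy.2.2 ⟨h.1, h'⟩, ?_⟩⟩
        rw [C.κ_x y h.1]
        exact hy.2.1
      · rintro ⟨hy, hx, hr⟩
        refine ⟨⟨hy, by linarith, fun h => hr ⟨h.1, (h23.trans h34).trans_le h.2⟩⟩, hx,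
          fun h => hr ⟨h.1, h.2.1⟩⟩
    rw [h5]
    exact C.closed_in r₂ (2 * ε / 3) (h0.trans (h01.trans h12)) (h23.trans (h34.trans h4))
      (by linarith)
  · obtain ⟨R₁, h5⟩ := C.out
    obtain ⟨R₂, h6⟩ := C.inn (ε / 3) (by positivity)
    refine ⟨max |R₁| |R₂|, fun y hy hx => ?_⟩
    rw [abs_le]
    constructor
    · have h7 : R₂ < D.f y := by
        by_contra hcon
        exact absurd (h6 y (not_lt.1 hcon)).2.2 (not_lt.2 hx)
      have h8 : -|R₂| ≤ R₂ := neg_abs_le R₂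
      have h9 : |R₂| ≤ max |R₁| |R₂| := le_max_right _ _
      linarith
    · exact (h5 y (hN y hy)).trans ((le_abs_self R₁).trans (le_max_left _ _))

/-- **(C4)** -/
theorem seriesThm (H : XtCone D L a i₀ R α d d') (h1 : ∃ K, 0 ≤ K ∧ Sol1 D d K)
    (h2 : ∃ K, 0 ≤ K ∧ Sol2 D L a d K) : SeriesThm D L a α d := by
  intro C τ τ' e₁ hτ hττ hτ' he he'
  obtain ⟨ε, hεd⟩ : ∃ ε, ε = e₁ / 2 := ⟨_, rfl⟩
  have hε : 0 < ε := by rw [hεd]; positivity
  have hεe : ε < e₁ := by rw [hεd]; linarith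
  have hS := stDat_of H h1 h2 C (ε := ε) (r₀ := C.r₁ + (τ - C.r₁) / 4)
    (r₁ := C.r₁ + (τ - C.r₁) / 2) (r₂ := C.r₁ + 3 * (τ - C.r₁) / 4) (r₃ := τ)
    (r₄ := (τ + τ') / 2) hε (hεe.trans_le he') (by linarith) (by linarith) (by linarith)
    (by linarith) (by linarith) (by linarith)
  obtain ⟨ε', hε', K, hK, hsol⟩ := hS.solv
  refine ⟨min ε' ε, K, lt_min hε' hε, (min_le_right _ _).trans hεe.le, ?_⟩
  intro b hb hcl B hB hbd
  have hsub : C.inner ((τ + τ') / 2) ε ⊆ C.inner τ' e₁ :=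
    Coll.inner_mono C (by linarith) hεe.le
  obtain ⟨S, hS'⟩ := hsol b B hB ⟨fun y hy => hb y (hsub hy), fun y hy => hcl y (hsub hy),
    fun y hy => hbd y (hsub hy)⟩
  refine ⟨S, fun p hp => hS' p (Coll.inner_mono C le_rfl (min_le_right _ _) hp) ?_⟩
  exact hp.2.1.trans_le (min_le_left _ _)

end Vale.Agent.P267.H433
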