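import Vale.Agent.P267.H433.StLoc

/-!
# P267, ROUTE S (helper433): (S1)(b)(c), one step without loss of domain
-/

set_option linter.unusedSectionVars false

open scoped Manifold ContDiff ComplexConjugate Matrix
open Set Filter Topology

noncomputable section

namespace Vale.Agent.P267.H433

open Vale.Agent.P267.FL Vale.Agent.P267.XT Vale.Agent.P267.H692

variable {M : Type} [TopologicalSpace M] [ChartedSpace C2 M] [IsManifold 𝓘(ℂ, C2) ω M]
variable {ι : Type} [Fintype ι] [DecidableEq ι]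
variable {D : XTData M} {L : LB M ι} {a : M → Fin 2 → ℂ} {α : M → EuclideanSpace ℂ ι} {d : ℝ}
  {N N' F : Set M} {x : M → ℂ} {lam : M → EuclideanSpace ℂ ι} {ε : ℝ}

open Classical in
/-- `b₀ = b - ∂̄σ` on `N'`, `0` elsewhere -/
def bz (N' : Set M) (b : M → Fin 2 → ℂ) (σ : M → ℂ) (y : M) : Fin 2 → ℂ :=
  if y ∈ N' then b y - dbar0 0 σ y else 0

open Classical in
/-- `χ b₀`, extended by `0` -/
def gz (N : Set M) (x : M → ℂ) (ε : ℝ) (c : M → Fin 2 → ℂ) (y : M) : Fin 2 → ℂ :=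
  if y ∈ N then fun i => chi x ε y • c y i else 0

/-- `x⁻¹ (1 - χ)` -/
def ka (x : M → ℂ) (ε : ℝ) (y : M) : ℂ := (x y)⁻¹ * (1 - chi x ε y)

namespace StDat

variable (H : StDat D L a α d N N' F x lam ε)
include H

theorem N_open : IsOpen N := by
  rw [H.cover]; exact H.N'_open.union H.F_open

theorem sub' : N' ⊆ N := by rw [H.cover]; exact subset_union_left

theorem subF : F ⊆ N := by rw [H.cover]; exact subset_union_right

theorem lam_ne {y : M} (hy : y ∈ N) : lam y ≠ 0 := by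
  intro h0
  obtain ⟨C, hC⟩ := H.lam_bd
  have := (hC y hy).2
  rw [h0, norm_zero, mul_zero] at this
  linarith

/-! ### `b₀` -/

section bz

variable {b : M → Fin 2 → ℂ} {B C B' : ℝ} {σ : M → ℂ} (hb : Clo D d N b B)
  (h1 : ∀ y ∈ N', At0 ∞ 0 σ y)
  (h3 : ∀ y ∈ N', n1 D.h 0 (dbar0 0 σ) y ≤ B' * Real.exp (-d * D.f y))
  (h4 : ∀ y ∈ N', y ∈ F → ∀ i, dbar0 0 σ y i = b y i)
include hb h1 h4

omit h1 in
theorem bz_F {y : M} (hy : y ∈ F) : bz N' b σ y = 0 := by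
  rw [bz]
  split_ifs with h
  · funext i
    rw [Pi.sub_apply, h4 y h hy i, sub_self]
    rfl
  · rfl

omit h1 in
theorem bz_near_F {y : M} (hy : y ∈ F) : bz N' b σ =ᶠ[𝓝 y] fun _ => 0 := by
  filter_upwards [H.F_open.mem_nhds hy] with z hz
  exact H.bz_F hb h4 hz

omit h1 h4 in
theorem bz_near {y : M} (hy : y ∈ N') : bz N' b σ =ᶠ[𝓝 y] fun z => b z - dbar0 0 σ z := by
  filter_upwards [H.N'_open.mem_nhds hy] with z hz
  rw [bz, if_pos hz]

theorem at1_bz {y : M} (hy : y ∈ N) : At1 ∞ 0 (bz N' b σ) y := by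
  rw [H.cover] at hy
  rcases hy with hy | hy
  · refine At1.congr ?_ (H.bz_near hb hy)
    exact (hb.sm y (H.sub' hy)).sub ((h1 y hy).dbar infty_add_one_le)
  · exact (at1_zero (n := ∞) (κ := 0) (x := y)).congr (H.bz_near_F hb h4 hy)

theorem dbar1_bz {y : M} (hy : y ∈ N) : dbar1 0 (bz N' b σ) y = 0 := by
  rw [H.cover] at hy
  rcases hy with hy | hy
  · rw [FL.dbar1_congr (H.bz_near hb hy), FL.dbar1_sub
      ((hb.sm y (H.sub' hy)).of_le H706.one_le_infty)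
      (((h1 y hy).dbar infty_add_one_le).of_le H706.one_le_infty),
      hb.cl y (H.sub' hy), FL.dbar1_dbar0 ((h1 y hy).of_le H706.two_le_infty), sub_self]
  · rw [FL.dbar1_congr (H.bz_near_F hb h4 hy)]
    exact FL.dbar1_zero

include h3 in
omit h1 in
theorem n1_bz (hB : 0 ≤ B) (hB' : 0 ≤ B') {y : M} (hy : y ∈ N) :
    n1 D.h 0 (bz N' b σ) y ≤ (B + B') * Real.exp (-d * D.f y) := by
  by_cases hy' : y ∈ N'
  · have e : bz N' b σ y = (fun z => b z - dbar0 0 σ z) y := by rw [bz, if_pos hy']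
    rw [n1_val (w' := fun z => b z - dbar0 0 σ z) e, add_mul]
    exact (n1_sub_le' D.herm _ _ _).trans (add_le_add (hb.bd y hy) (h3 y hy'))
  · have e : bz N' b σ y = 0 := by rw [bz, if_neg hy']
    rw [n1_of_zero e]
    positivity

end bz

/-! ### `χ b₀` -/

section gz

variable {c : M → Fin 2 → ℂ} {B : ℝ} (hc : ∀ y ∈ N, At1 ∞ 0 c y)
  (hcl : ∀ y ∈ N, dbar1 0 c y = 0) (hcb : ∀ y ∈ N, n1 D.h 0 c y ≤ B * Real.exp (-d * D.f y))
  (hcF : ∀ y ∈ F, c y = 0)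

include hcF in
/-- `χ c` vanishes off the closed set `K` -/
theorem gz_near {y : M} (hy : ¬(y ∈ N ∧ ‖x y‖ ≤ 2 * ε / 3 ∧ y ∉ F)) :
    gz N x ε c =ᶠ[𝓝 y] fun _ => 0 := by
  filter_upwards [H.closed.isOpen_compl.mem_nhds hy] with z hz
  rw [gz]
  split_ifs with h
  · funext i
    by_cases h1 : z ∈ F
    · rw [hcF z h1]; simp
    · have h2 : 2 * ε / 3 ≤ ‖x z‖ := by
        by_contra hcon
        exact hz ⟨h, (not_le.1 hcon).le, h1⟩
      rw [chi_eq_zero H.ε_pos h2, zero_smul]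
      rfl
  · rfl

theorem gz_near' {y : M} (hy : y ∈ N) :
    gz N x ε c =ᶠ[𝓝 y] fun z i => chi x ε z • c z i := by
  filter_upwards [H.N_open.mem_nhds hy] with z hz
  rw [gz, if_pos hz]

include hc hcF in
theorem reg_gz : Reg1 ∞ 0 (gz N x ε c) := by
  rw [reg1_iff_at]
  intro y
  by_cases hy : y ∈ N
  · exact (At1.smul (at0_chi (H.x_sm y hy)) (hc y hy)).congr (H.gz_near' hy)
  · exact (at1_zero (n := ∞) (κ := 0) (x := y)).congr (H.gz_near hcF fun h => hy h.1)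

include hcb in
theorem n1_gz (hB : 0 ≤ B) (y : M) :
    n1 D.h 0 (gz N x ε c) y ≤ B * Real.exp (-d * D.f y) := by
  by_cases hy : y ∈ N
  · have e : gz N x ε c y = (fun z i => chi x ε z • c z i) y := by rw [gz, if_pos hy]
    rw [n1_val (w' := fun z i => chi x ε z • c z i) e, H692.n1_smul D.herm]
    refine le_trans ?_ (hcb y hy)
    exact mul_le_of_le_one_left (H692.n1_nonneg _ _) norm_chi_le
  · have e : gz N x ε c y = 0 := by rw [gz, if_neg hy]
    rw [n1_of_zero e]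
    positivity

include hcl in
/-- `∂̄(χ c) = 0` where `|x| < ε/3` -/
theorem dgz_near {y : M} (hy : y ∈ N) (hx : ‖x y‖ < ε / 3) :
    dbar1 0 (gz N x ε c) =ᶠ[𝓝 y] fun _ => 0 := by
  have h1 : ∀ᶠ z in 𝓝 y, ‖x z‖ < ε / 3 :=
    (H.x_sm y hy).continuousAt.norm.eventually_lt_const hx
  filter_upwards [h1.eventually_nhds, H.N_open.mem_nhds hy] with z hz hzN
  have h2 : gz N x ε c =ᶠ[𝓝 z] c := by
    filter_upwards [H.gz_near' (c := c) hzN, hz] with w hw hw'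
    rw [hw]
    funext i
    rw [chi_eq_one H.ε_pos hw'.le, one_smul]
  rw [FL.dbar1_congr h2, hcl z hzN]

include hc hcl in
theorem dgz_eq {y : M} (hy : y ∈ N) : dbar1 0 (gz N x ε c) y =
    dbar0 0 (chi x ε) y 0 • c y 1 - dbar0 0 (chi x ε) y 1 • c y 0 := by
  rw [FL.dbar1_congr (H.gz_near' hy), FL.dbar1_smul
    ((at0_chi (H.x_sm y hy)).of_le H706.one_le_infty) ((hc y hy).of_le H706.one_le_infty),
    hcl y hy, smul_zero, add_zero]

include hcF in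
theorem dgz_off {y : M} (hy : ¬(y ∈ N ∧ ‖x y‖ ≤ 2 * ε / 3 ∧ y ∉ F)) :
    dbar1 0 (gz N x ε c) =ᶠ[𝓝 y] fun _ => 0 := by
  filter_upwards [(H.gz_near hcF hy).eventually_nhds] with z hz
  rw [FL.dbar1_congr hz]
  exact FL.dbar1_zero

include hcl hcF in
theorem dgz_alpha {y : M} (hy : α y = 0) : dbar1 0 (gz N x ε c) =ᶠ[𝓝 y] fun _ => 0 := by
  by_cases hK : y ∈ N ∧ ‖x y‖ ≤ 2 * ε / 3 ∧ y ∉ F
  · have hN := hK.1
    have h1 : x y = 0 := by
      have h2 := H.α_eq y hN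
      rw [hy] at h2
      exact (smul_eq_zero.1 h2.symm).resolve_right (H.lam_ne hN)
    refine H.dgz_near hcl hN ?_
    rw [h1, norm_zero]
    linarith [H.ε_pos]
  · exact H.dgz_off hcF hK

end gz

/-! ### the bound of `∂̄χ` -/

theorem exists_chi_bound : ∃ C : ℝ, 0 ≤ C ∧ ∀ y, (y ∈ N ∧ ‖x y‖ ≤ 2 * ε / 3 ∧ y ∉ F) →
    ε / 3 ≤ ‖x y‖ → n1 D.h 0 (dbar0 0 (chi x ε)) y ≤ C := by
  obtain ⟨T, hT⟩ := H.f_bd
  set K : Set M := {y | y ∈ N ∧ ‖x y‖ ≤ 2 * ε / 3 ∧ y ∉ F} with hK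
  have hxK : ContinuousOn (fun y => ‖x y‖) K := fun y hy =>
    ((H.x_sm y hy.1).continuousAt.norm).continuousWithinAt
  have hK1 : IsClosed (K ∩ (fun y => ‖x y‖) ⁻¹' Ici (ε / 3)) :=
    hxK.preimage_isClosed_of_isClosed H.closed isClosed_Ici
  have hsub : K ∩ (fun y => ‖x y‖) ⁻¹' Ici (ε / 3) ⊆ D.f ⁻¹' Icc (-T) T := by
    intro y hy
    exact abs_le.1 (hT y hy.1.1 hy.2)
  have hcomp := (D.f_proper (-T) T).of_isClosed_subset hK1 hsub
  have hcont : ContinuousOn (n1 D.h 0 (dbar0 0 (chi x ε)))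
      (K ∩ (fun y => ‖x y‖) ⁻¹' Ici (ε / 3)) := fun y hy =>
    (continuousAt_n1 D.herm (n := ∞)
      ((at0_chi (H.x_sm y hy.1.1)).dbar infty_add_one_le)).continuousWithinAt
  obtain ⟨C, hC⟩ := hcomp.bddAbove_image hcont
  exact ⟨max C 0, le_max_right _ _, fun y hy hy' =>
    (hC ⟨y, ⟨hy, hy'⟩, rfl⟩).trans (le_max_left _ _)⟩

/-! ### `x⁻¹ (1 - χ)` -/

theorem x_mul_ka {y : M} : x y * ka x ε y = 1 - chi x ε y := by
  rw [ka]
  by_cases h : x y = 0
  · have : ‖x y‖ ≤ ε / 3 := by rw [h, norm_zero]; linarith [H.ε_pos]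
    rw [chi_eq_one H.ε_pos this, h]; simp
  · field_simp

theorem norm_ka_le {y : M} : ‖ka x ε y‖ ≤ 3 / ε := by
  have hε := H.ε_pos
  rcases le_or_gt ‖x y‖ (ε / 3) with h | h
  · rw [ka, chi_eq_one H.ε_pos h, sub_self, mul_zero, norm_zero]; positivity
  · rw [ka, norm_mul, norm_inv]
    have h1 : ‖x y‖⁻¹ ≤ 3 / ε := by
      rw [inv_le_comm₀ (by linarith) (by positivity)]
      have : (3 / ε)⁻¹ = ε / 3 := by rw [inv_div]
      rw [this]; exact h.le
    calc ‖x y‖⁻¹ * ‖1 - chi x ε y‖ ≤ (3 / ε) * 1 :=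
          mul_le_mul h1 norm_one_sub_chi_le (norm_nonneg _) (by positivity)
      _ = 3 / ε := mul_one _

theorem at0_ka {y : M} (hy : y ∈ N) : At0 ∞ 0 (ka x ε) y := by
  by_cases h : x y = 0
  · have h1 : ∀ᶠ z in 𝓝 y, ‖x z‖ < ε / 3 := by
      refine (H.x_sm y hy).continuousAt.norm.eventually_lt_const ?_
      show ‖x y‖ < ε / 3
      rw [h, norm_zero]; linarith [H.ε_pos]
    refine (at0_zero (n := ∞) (κ := 0) (x := y)).congr ?_
    filter_upwards [h1] with z hz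
    rw [ka, chi_eq_one H.ε_pos hz.le, sub_self, mul_zero]
  · have h1 := (H.x_sm y hy).inv0 h
    have h2 : At0 ∞ 0 (fun z => 1 - chi x ε z) y := (at0_const (n := ∞) (c := (1 : ℂ))).sub
      (at0_chi (H.x_sm y hy))
    exact h1.mul h2

end StDat

end Vale.Agent.P267.H433
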