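import Vale.Agent.P267.H433.St1

/-!
# P267, ROUTE S (helper433): (S1), the one step theorem
-/

set_option linter.unusedSectionVars false

open scoped Manifold ContDiff ComplexConjugate Matrix
open Set Filter Topology

noncomputable section

namespace Vale.Agent.P267.H433

open Vale.Agent.P267.FL Vale.Agent.P267.XT Vale.Agent.P267.H692

variable {M : Type} [TopologicalSpace M] [ChartedSpace C2 M] [IsManifold 𝓘(ℂ, C2) ω M]
variable {ι : Type} [Fintype ι] [DecidableEq ι]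
variable {D : XTData M} {L : LB M ι} {a : M → Fin 2 → ℂ} {α : M → EuclideanSpace ℂ ι} {d : ℝ}
  {N N' F : Set M} {x : M → ℂ} {lam : M → EuclideanSpace ℂ ι} {ε : ℝ}

namespace StDat

variable (H : StDat D L a α d N N' F x lam ε)
include H

theorem exists_ainv_bound : ∃ C : ℝ, 0 ≤ C ∧ ∀ y ∈ N, ε / 3 ≤ ‖x y‖ → ‖ainv α y‖ ≤ C := by
  obtain ⟨C, hC⟩ := H.lam_bd
  refine ⟨3 * |C| / ε, by have := H.ε_pos; positivity, fun y hy hx => ?_⟩
  have hε := H.ε_pos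
  have h1 := (hC y hy).2
  have hl : 0 < ‖lam y‖ := norm_pos_iff.2 (H.lam_ne hy)
  have hC0 : 0 < C := by
    by_contra hcon
    nlinarith [not_lt.1 hcon]
  have hx0 : 0 < ‖x y‖ := by linarith
  have hα : α y ≠ 0 := by
    rw [H.α_eq y hy]
    exact smul_ne_zero (norm_pos_iff.1 hx0) (H.lam_ne hy)
  rw [norm_ainv hα, H.α_eq y hy, norm_smul, mul_inv, abs_of_pos hC0]
  have h2 : ‖x y‖⁻¹ ≤ 3 / ε := by
    rw [inv_le_comm₀ hx0 (by positivity), inv_div]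
    exact hx
  have h3 : ‖lam y‖⁻¹ ≤ C := by
    rw [inv_le_iff_one_le_mul₀ hl]
    exact h1
  calc ‖x y‖⁻¹ * ‖lam y‖⁻¹ ≤ (3 / ε) * C :=
        mul_le_mul h2 h3 (inv_nonneg.2 hl.le) (by positivity)
    _ = 3 * C / ε := by ring

/-- (S1)(b): the global part.  `c` closed on `N`, `0` on the outer part of the ring -/
theorem globalPart : ∃ K : ℝ, 0 ≤ K ∧ ∀ (c : M → Fin 2 → ℂ) (B : ℝ), 0 ≤ B →
    (∀ y ∈ N, At1 ∞ 0 c y) → (∀ y ∈ N, dbar1 0 c y = 0) →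
    (∀ y ∈ N, n1 D.h 0 c y ≤ B * Real.exp (-d * D.f y)) → (∀ y ∈ F, c y = 0) →
    ∃ (η : M → Fin 2 → EuclideanSpace ℂ ι) (u : M → ℂ), Reg1 ∞ 0 η ∧ L.dual.Sec1 η ∧
      (∀ y, n1 D.h 0 η y ≤ K * B * Real.exp (-d * D.f y)) ∧ Reg0 ∞ 0 u ∧
      (∀ y, ‖u y‖ ≤ K * B * Real.exp (-d * D.f y)) ∧
      ∀ y ∈ N, ∀ i, dbar0 0 u y i = chi x ε y * c y i - pair (α y) (η y i) := by
  obtain ⟨Cx, hCx, hchi⟩ := H.exists_chi_bound
  obtain ⟨Ci, hCi, hainv⟩ := H.exists_ainv_bound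
  obtain ⟨C1, hC1, hq1⟩ := H.q1
  obtain ⟨C2, hC2, hq2⟩ := H.q2
  obtain ⟨Al, hAl⟩ : ∃ A : ℝ, 0 ≤ A ∧ ∀ y, ‖α y‖ ≤ A := by
    obtain ⟨A, hA⟩ := H.α_bdd
    exact ⟨max A 0, le_max_right _ _, fun y => (hA y).trans (le_max_left _ _)⟩
  have hε := H.ε_pos
  -- the constants
  obtain ⟨k₂, hk₂⟩ : ∃ k, k = Ci * Cx := ⟨_, rfl⟩
  obtain ⟨k₃, hk₃⟩ : ∃ k, k = 1 + Al * (C2 * k₂) := ⟨_, rfl⟩
  have hAl0 := hAl.1
  have hk₂' : 0 ≤ k₂ := by rw [hk₂]; positivity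
  have hk₃' : 0 ≤ k₃ := by rw [hk₃]; positivity
  refine ⟨C2 * k₂ + C1 * k₃, by positivity, fun c B hB c1 c2 c3 c4 => ?_⟩
  -- `χ c`
  obtain ⟨g, hg⟩ : ∃ g, g = gz N x ε c := ⟨_, rfl⟩
  have g1 : Reg1 ∞ 0 g := by rw [hg]; exact H.reg_gz c1 c4
  have g2 : ∀ y, n1 D.h 0 g y ≤ B * Real.exp (-d * D.f y) := by
    rw [hg]; exact H.n1_gz c3 hB
  have f1 : Reg2 ∞ 0 (dbar1 0 g) := g1.dbar infty_add_one_le
  have f2 : ∀ y, α y = 0 → dbar1 0 g =ᶠ[𝓝 y] fun _ => 0 := fun y hy => by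
    rw [hg]; exact H.dgz_alpha c2 c4 hy
  -- the `(0,2)`-form `r`
  obtain ⟨r, hr⟩ : ∃ r : M → EuclideanSpace ℂ ι, r = fun y => dbar1 0 g y • ainv α y := ⟨_, rfl⟩
  have hr' : ∀ y, r y = dbar1 0 g y • ainv α y := fun y => by rw [hr]
  have r1 : Reg2 ∞ 0 r := by rw [hr]; exact H692.S2.ainv H.α_reg f1 f2
  have r2 : L.dual.Sec r := fun y => by rw [hr']; exact H692.act_smul_ainv H.α_sec y _
  have r3 : ∀ y, n2 D.h 0 r y ≤ (k₂ * B) * Real.exp (-d * D.f y) := by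
    intro y
    have hpos : 0 ≤ (k₂ * B) * Real.exp (-d * D.f y) := by positivity
    by_cases hK : y ∈ N ∧ ‖x y‖ ≤ 2 * ε / 3 ∧ y ∉ F
    · rcases lt_or_ge ‖x y‖ (ε / 3) with hx | hx
      · have : r y = 0 := by
          rw [hr', hg, (H.dgz_near c2 hK.1 hx).self_of_nhds, zero_smul]
        rw [n2_of_zero this]
        exact hpos
      · have e1 : n2 D.h 0 (dbar1 0 g) y ≤ Cx * (B * Real.exp (-d * D.f y)) := by
          rw [hg, n2_val (w' := fun z => dbar0 0 (chi x ε) z 0 • c z 1 -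
            dbar0 0 (chi x ε) z 1 • c z 0) (H.dgz_eq c1 c2 hK.1)]
          refine (n2_wedge_le D.herm 0 _ _ y).trans ?_
          exact mul_le_mul (hchi y hK hx) (c3 y hK.1) (H692.n1_nonneg _ _) hCx
        have e2 : n2 D.h 0 r y ≤ Ci * n2 D.h 0 (dbar1 0 g) y := by
          refine H692.n2_le_of D.herm _ _ _ _ ?_
          rw [hr', norm_smul, mul_comm]
          exact mul_le_mul_of_nonneg_right (hainv y hK.1 hx) (norm_nonneg _)
        refine e2.trans ((mul_le_mul_of_nonneg_left e1 hCi).trans (le_of_eq ?_))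
        rw [hk₂]; ring
    · have : r y = 0 := by
        rw [hr', hg, (H.dgz_off c4 hK).self_of_nhds, zero_smul]
      rw [n2_of_zero this]
      exact hpos
  obtain ⟨η, e1, e2, e3, e4⟩ := hq2 r (k₂ * B) (by positivity) r1 r2 r3
  -- `⟨α, η⟩`
  have s1α : ∀ y, S0 α y := fun y => H692.reg0.1 H.α_reg y
  obtain ⟨w, hw⟩ : ∃ w : M → Fin 2 → ℂ, w = fun y i => pair (α y) (η y i) := ⟨_, rfl⟩
  have p1 : Reg1 ∞ 0 w := by
    rw [hw]
    refine H692.reg1.2 fun y => ?_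
    have := S1.bil pairL (s1α y) (H692.reg1.1 e1 y)
    simpa only [pairL_apply] using this
  have p2 : ∀ y, dbar1 0 w y = dbar1 0 g y := by
    intro y
    rw [hw, H692.dbar1_pair (s1α y) H.α_sec (H.α_hol y) (H692.reg1.1 e1 y) e2, e3, hr']
    exact H692.pair_smul_ainv fun hy => (f2 y hy).self_of_nhds
  have p3 : ∀ y, n1 D.h 0 w y ≤ (Al * (C2 * k₂) * B) * Real.exp (-d * D.f y) := by
    intro y
    rw [hw]
    refine (H692.n1_pair_le D.herm _ _ y).trans ?_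
    refine (mul_le_mul (hAl.2 y) (e4 y) (H692.n1_nonneg _ _) hAl0).trans (le_of_eq ?_)
    ring
  -- the closed form `χ c - ⟨α, η⟩`
  obtain ⟨u, u1, u2, u3⟩ := hq1 (fun y => g y - w y) (k₃ * B)
    (by positivity) (reg1_iff_at.2 fun y => (g1.at y).sub (p1.at y))
    (fun y => by
      refine (n1_sub_le' D.herm g _ y).trans ?_
      refine (add_le_add (g2 y) (p3 y)).trans (le_of_eq ?_)
      rw [hk₃]; ring)
    (fun y => by
      rw [FL.dbar1_sub ((g1.at y).of_le H706.one_le_infty) ((p1.at y).of_le H706.one_le_infty),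
        p2 y, sub_self])
  refine ⟨η, u, e1, e2, fun y => (e4 y).trans ?_, u1, fun y => (u2 y).trans ?_,
    fun y hy i => ?_⟩
  · rw [← mul_assoc]
    refine mul_le_mul_of_nonneg_right (mul_le_mul_of_nonneg_right ?_ hB) (Real.exp_pos _).le
    have : 0 ≤ C1 * k₃ := by positivity
    linarith
  · rw [← mul_assoc]
    refine mul_le_mul_of_nonneg_right (mul_le_mul_of_nonneg_right ?_ hB) (Real.exp_pos _).le
    have : 0 ≤ C2 * k₂ := by positivity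
    linarith
  · rw [u3, Pi.sub_apply, hg, hw, gz, if_pos hy, smul_eq_mul]

/-- (S1)(c): the form `b₁` -/
theorem exists_b1 {c : M → Fin 2 → ℂ} (c1 : ∀ y ∈ N, At1 ∞ 0 c y)
    (c2 : ∀ y ∈ N, dbar1 0 c y = 0) {η : M → Fin 2 → EuclideanSpace ℂ ι} {u : M → ℂ}
    (e1 : Reg1 ∞ 0 η) (u1 : Reg0 ∞ 0 u)
    (u3 : ∀ y ∈ N, ∀ i, dbar0 0 u y i = chi x ε y * c y i - pair (α y) (η y i)) :
    ∃ b₁ : M → Fin 2 → ℂ, (b₁ = fun y i => pair (lam y) (η y i) + ka x ε y • c y i) ∧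
      (∀ y ∈ N, At1 ∞ 0 b₁ y) ∧ (∀ y ∈ N, dbar1 0 b₁ y = 0) ∧
      ∀ y ∈ N, ∀ i, x y * b₁ y i = c y i - dbar0 0 u y i := by
  obtain ⟨b₁, hb₁⟩ : ∃ b₁ : M → Fin 2 → ℂ,
    b₁ = fun y i => pair (lam y) (η y i) + ka x ε y • c y i := ⟨_, rfl⟩
  have q1 : ∀ y ∈ N, At1 ∞ 0 b₁ y := by
    intro y hy
    have a1 : S0 lam y := H.lam_sm y hy
    have a2 : S1 η y := H692.reg1.1 e1 y
    have h1 := S1.bil pairL a1 a2
    simp only [pairL_apply] at h1
    have h2 : S1 (fun z i => ka x ε z • c z i) y := At1.smul (H.at0_ka hy) (c1 y hy)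
    rw [hb₁]
    exact H692.S1.add h1 h2
  have q2 : ∀ y ∈ N, ∀ i, x y * b₁ y i = c y i - dbar0 0 u y i := by
    intro y hy i
    have h1 : pair (α y) (η y i) = x y * pair (lam y) (η y i) := by
      rw [H.α_eq y hy, pair_smul_left]
    have h3 := H.x_mul_ka (y := y)
    rw [u3 y hy, h1, hb₁]
    simp only [smul_eq_mul]
    linear_combination c y i * h3
  have q3 : ∀ y ∈ N, x y ≠ 0 → dbar1 0 b₁ y = 0 := by
    intro y hy hx
    have h1 : (fun z i => x z • b₁ z i) =ᶠ[𝓝 y] fun z => c z - dbar0 0 u z := by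
      filter_upwards [H.N_open.mem_nhds hy] with z hz
      funext i
      rw [smul_eq_mul, q2 z hz i]
      rfl
    have h2 := FL.dbar1_smul (((H.x_sm y hy)).of_le H706.one_le_infty)
      ((q1 y hy).of_le H706.one_le_infty)
    rw [FL.dbar1_congr h1, FL.dbar1_sub ((c1 y hy).of_le H706.one_le_infty)
      ((((u1.at y).dbar infty_add_one_le).of_le H706.one_le_infty)), c2 y hy,
      FL.dbar1_dbar0 ((u1.at y).of_le H706.two_le_infty), sub_self, H.x_hol y hy, H.x_hol y hy,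
      zero_smul, zero_smul, sub_self, zero_add] at h2
    exact (smul_eq_zero.1 h2.symm).resolve_left hx
  refine ⟨b₁, hb₁, q1, fun y hy => ?_, q2⟩
  refine eq_zero_of_closure D.herm ((q1 y hy).dbar infty_add_one_le) (H.dense hy) ?_
  intro z hz
  exact q3 z hz.1 hz.2

/-- **(S1), one step without loss of domain.** -/
theorem oneStep : OneStep D d N N' x := by
  obtain ⟨Ca, hCa, hring⟩ := H.ring
  obtain ⟨K, hK, hglob⟩ := H.globalPart
  obtain ⟨Cl, hCl⟩ : ∃ A : ℝ, 0 ≤ A ∧ ∀ y ∈ N, ‖lam y‖ ≤ A := by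
    obtain ⟨A, hA⟩ := H.lam_bd
    exact ⟨max A 0, le_max_right _ _, fun y hy => ((hA y hy).1).trans (le_max_left _ _)⟩
  have hε := H.ε_pos
  have hCl0 := hCl.1
  obtain ⟨k₀, hk₀⟩ : ∃ k, k = 1 + Ca := ⟨_, rfl⟩
  have hk₀' : 0 ≤ k₀ := by rw [hk₀]; positivity
  refine ⟨(Ca + K * k₀) + (Cl * (K * k₀) + (3 / ε) * k₀), by positivity, fun b B hB hb => ?_⟩
  obtain ⟨σ, hσ1, hσ2, hσ3, hσ4⟩ := hring b B hB hb
  -- `b₀`
  obtain ⟨c, hc⟩ : ∃ c, c = bz N' b σ := ⟨_, rfl⟩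
  have c1 : ∀ y ∈ N, At1 ∞ 0 c y := fun y hy => by rw [hc]; exact H.at1_bz hb hσ1 hσ4 hy
  have c2 : ∀ y ∈ N, dbar1 0 c y = 0 := fun y hy => by rw [hc]; exact H.dbar1_bz hb hσ1 hσ4 hy
  have c3 : ∀ y ∈ N, n1 D.h 0 c y ≤ (k₀ * B) * Real.exp (-d * D.f y) := by
    intro y hy
    have := H.n1_bz hb hσ3 hσ4 hB (by positivity) hy
    rwa [← hc, show B + Ca * B = k₀ * B by rw [hk₀]; ring] at this
  have c4 : ∀ y ∈ F, c y = 0 := fun y hy => by rw [hc]; exact H.bz_F hb hσ4 hy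
  have hkB : 0 ≤ k₀ * B := by positivity
  obtain ⟨η, u, e1, e2, e4, u1, u2, u3⟩ := hglob c (k₀ * B) hkB c1 c2 c3 c4
  obtain ⟨b₁, hb₁, q1, q4, q2⟩ := H.exists_b1 c1 c2 e1 u1 u3
  have q5 : ∀ y ∈ N, n1 D.h 0 b₁ y ≤
      ((Cl * (K * k₀) + (3 / ε) * k₀) * B) * Real.exp (-d * D.f y) := by
    intro y hy
    rw [hb₁]
    refine (H692.n1_add_le D.herm _ _ y).trans ?_
    have h1 : n1 D.h 0 (fun z i => pair (lam z) (η z i)) y ≤
        Cl * (K * (k₀ * B) * Real.exp (-d * D.f y)) :=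
      (H692.n1_pair_le D.herm _ _ y).trans
        (mul_le_mul (hCl.2 y hy) (e4 y) (H692.n1_nonneg _ _) hCl0)
    have h2 : n1 D.h 0 (fun z i => ka x ε z • c z i) y ≤
        (3 / ε) * ((k₀ * B) * Real.exp (-d * D.f y)) := by
      rw [H692.n1_smul D.herm]
      exact mul_le_mul H.norm_ka_le (c3 y hy) (H692.n1_nonneg _ _) (by positivity)
    refine (add_le_add h1 h2).trans (le_of_eq ?_)
    ring
  refine ⟨fun y => σ y + u y, b₁, fun y hy => (hσ1 y hy).add (u1.at y), fun y hy => ?_,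
    ⟨q1, q4, fun y hy => (q5 y hy).trans ?_⟩, fun y hy i => ?_⟩
  · refine (norm_add_le _ _).trans ((add_le_add (hσ2 y hy) (u2 y)).trans ?_)
    have : Ca * B * Real.exp (-d * D.f y) + K * (k₀ * B) * Real.exp (-d * D.f y) =
      (Ca + K * k₀) * B * Real.exp (-d * D.f y) := by ring
    rw [this]
    refine mul_le_mul_of_nonneg_right (mul_le_mul_of_nonneg_right ?_ hB) (Real.exp_pos _).le
    have : 0 ≤ Cl * (K * k₀) + (3 / ε) * k₀ := by positivity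
    linarith
  · refine mul_le_mul_of_nonneg_right (mul_le_mul_of_nonneg_right ?_ hB) (Real.exp_pos _).le
    have : 0 ≤ Ca + K * k₀ := by positivity
    linarith
  · have hyN := H.sub' hy
    have h1 := q2 y hyN i
    have h2 : c y i = b y i - dbar0 0 σ y i := by
      rw [hc, bz, if_pos hy]; rfl
    have h3 : dbar0 0 (fun y => σ y + u y) y = dbar0 0 σ y + dbar0 0 u y :=
      FL.dbar0_add ((hσ1 y hy).of_le H706.one_le_infty) ((u1.at y).of_le H706.one_le_infty)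
    rw [h3, Pi.add_apply, h1, h2]
    ring

end StDat

end Vale.Agent.P267.H433
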