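import Vale.Agent.P267.H433.StDef
import Vale.Agent.P267.H692.Cone2
import Vale.Agent.P267.H706.Lim

/-!
# P267, ROUTE S (helper433): pointwise lemmas, quantitative `Q1`, `Q2` from T0, T1, T2
-/

set_option linter.unusedSectionVars false

open scoped Manifold ContDiff ComplexConjugate Matrix
open Set Filter Topology

noncomputable section

namespace Vale.Agent.P267.H433

open Vale.Agent.P267.FL Vale.Agent.P267.XT Vale.Agent.P267.H692

variable {M : Type} [TopologicalSpace M] [ChartedSpace C2 M]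
variable {V : Type*} [NormedAddCommGroup V] [InnerProductSpace ℂ V]
variable {h : M → Matrix (Fin 2) (Fin 2) ℂ}

/-! ### the norms depend on the value at the point only -/

theorem n1_val {κ : ℤ} {w w' : M → Fin 2 → V} {x : M} (hw : w x = w' x) :
    n1 h κ w x = n1 h κ w' x := by
  simp only [n1, nsq1, hw]

theorem n2_val {κ : ℤ} {w w' : M → V} {x : M} (hw : w x = w' x) :
    n2 h κ w x = n2 h κ w' x := by
  simp only [n2, hw]

theorem n1_of_zero {w : M → Fin 2 → V} {x : M} (hw : w x = 0) : n1 h 0 w x = 0 := by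
  rw [n1_val (w' := fun _ _ => (0 : V)) (by rw [hw]; rfl)]
  simp [n1, nsq1]

theorem n2_of_zero {w : M → V} {x : M} (hw : w x = 0) : n2 h 0 w x = 0 := by
  simp [n2, hw]

theorem n1_sub_le' (hh : IsHerm h) (w w' : M → Fin 2 → V) (x : M) :
    n1 h 0 (fun y => w y - w' y) x ≤ n1 h 0 w x + n1 h 0 w' x := by
  have e : n1 h 0 (fun y => w y - w' y) x = n1 h 0 (fun y i => w y i - w' y i) x :=
    n1_val rfl
  rw [e]
  exact H692.n1_sub_le hh w w' x

/-! ### continuity at a point -/

section cont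

variable [IsManifold 𝓘(ℂ, C2) ω M]

theorem continuousAt_n1 (hh : IsHerm h) {n : WithTop ℕ∞} {κ : ℤ} {w : M → Fin 2 → V} {x : M}
    (hw : At1 n κ w x) : ContinuousAt (n1 h κ w) x := by
  have hx := mem_chart_source C2 x
  have he := chart_mem_atlas C2 x
  have h1 : ContinuousAt (fun z => Real.sqrt (gsum (loc11 (chartAt C2 x) h z)⁻¹
      (loc1 κ (chartAt C2 x) w z)).re *
      (loc11 (chartAt C2 x) h z).det.re ^ (-(κ : ℝ) / 2)) (chartAt C2 x x) :=
    ((continuousAt_gsum hh he hx (ContDiffAt.continuousAt hw)).sqrt).mul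
      (continuousAt_det hh he hx _)
  have h2 := ContinuousAt.comp (f := chartAt C2 x) h1 ((chartAt C2 x).continuousAt hx)
  refine h2.congr ?_
  filter_upwards [(chartAt C2 x).open_source.mem_nhds hx] with y hy
  exact (n1_chart hh he hy κ w).symm

theorem continuousAt_n2 (hh : IsHerm h) {n : WithTop ℕ∞} {κ : ℤ} {w : M → V} {x : M}
    (hw : At2 n κ w x) : ContinuousAt (n2 h κ w) x := by
  have hx := mem_chart_source C2 x
  have he := chart_mem_atlas C2 x
  have h1 : ContinuousAt (fun z => ‖loc2 κ (chartAt C2 x) w z‖ *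
      (loc11 (chartAt C2 x) h z).det.re ^ (-((κ : ℝ) + 1) / 2)) (chartAt C2 x x) :=
    (ContDiffAt.continuousAt hw).norm.mul (continuousAt_det hh he hx _)
  have h2 := ContinuousAt.comp (f := chartAt C2 x) h1 ((chartAt C2 x).continuousAt hx)
  refine h2.congr ?_
  filter_upwards [(chartAt C2 x).open_source.mem_nhds hx] with y hy
  exact (n2_chart hh he hy κ w).symm

/-- a smooth `(0,2)`-form which vanishes on a set vanishes on its closure -/
theorem eq_zero_of_closure (hh : IsHerm h) {w : M → V} {x : M} {S : Set M}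
    (hw : At2 ∞ 0 w x) (hS : x ∈ closure S) (h0 : ∀ y ∈ S, w y = 0) : w x = 0 := by
  apply H692.eq_zero_of_n2 hh
  have h1 := continuousAt_n2 hh hw
  have h2 : ∃ᶠ y in 𝓝 x, y ∈ S := mem_closure_iff_frequently.1 hS
  by_contra hne
  have h3 : ∀ᶠ y in 𝓝 x, n2 h 0 w y ≠ 0 := h1.eventually_ne hne
  obtain ⟨y, hy, hy'⟩ := (h2.and_eventually h3).exists
  exact hy' (n2_of_zero (h0 y hy))

end cont

/-! ### the inverse of a section -/

section ainv

variable {ι : Type} [Fintype ι] [DecidableEq ι]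

theorem norm_ainv {α : M → EuclideanSpace ℂ ι} {y : M} (h0 : α y ≠ 0) :
    ‖ainv α y‖ = ‖α y‖⁻¹ := by
  have h1 : (∑ l, α y l * conj (α y l)) = ((‖α y‖ ^ 2 : ℝ) : ℂ) := by
    rw [EuclideanSpace.norm_sq_eq]
    push_cast
    exact Finset.sum_congr rfl fun l _ => by
      rw [Complex.mul_conj, Complex.normSq_eq_norm_sq]; push_cast; rfl
  have h2 : ‖(WithLp.toLp 2 fun i => conj (α y i) : EuclideanSpace ℂ ι)‖ = ‖α y‖ := by
    simp [EuclideanSpace.norm_eq]
  have h3 : ‖α y‖ ≠ 0 := norm_ne_zero_iff.2 h0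
  rw [ainv, norm_smul, norm_inv, h1, Complex.norm_real, h2, Real.norm_of_nonneg (by positivity)]
  field_simp

end ainv

/-! ### the cut-off function of `|x|` -/

section cut

/-- the cut-off function: `1` for `|x| ≤ ε/3`, `0` for `|x| ≥ 2ε/3` -/
def chi (x : M → ℂ) (ε : ℝ) (y : M) : ℂ :=
  ((1 - Real.smoothTransition ((Complex.normSq (x y) - (ε / 3) ^ 2) /
    ((2 * ε / 3) ^ 2 - (ε / 3) ^ 2)) : ℝ) : ℂ)

variable {x : M → ℂ} {ε : ℝ} {y : M}

theorem den_pos (hε : 0 < ε) : 0 < (2 * ε / 3) ^ 2 - (ε / 3) ^ 2 := by nlinarith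

theorem chi_eq_one (hε : 0 < ε) (hy : ‖x y‖ ≤ ε / 3) : chi x ε y = 1 := by
  rw [chi, Real.smoothTransition.zero_of_nonpos]
  · simp
  · refine div_nonpos_of_nonpos_of_nonneg ?_ (den_pos hε).le
    rw [Complex.normSq_eq_norm_sq]
    have := pow_le_pow_left₀ (norm_nonneg (x y)) hy 2
    linarith

theorem chi_eq_zero (hε : 0 < ε) (hy : 2 * ε / 3 ≤ ‖x y‖) : chi x ε y = 0 := by
  rw [chi, Real.smoothTransition.one_of_one_le]
  · simp
  · rw [one_le_div (den_pos hε), Complex.normSq_eq_norm_sq]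
    have := pow_le_pow_left₀ (by positivity) hy 2
    linarith

theorem norm_chi_le : ‖chi x ε y‖ ≤ 1 := by
  rw [chi, Complex.norm_real, Real.norm_eq_abs, abs_of_nonneg]
  · linarith [Real.smoothTransition.nonneg
      ((Complex.normSq (x y) - (ε / 3) ^ 2) / ((2 * ε / 3) ^ 2 - (ε / 3) ^ 2))]
  · linarith [Real.smoothTransition.le_one
      ((Complex.normSq (x y) - (ε / 3) ^ 2) / ((2 * ε / 3) ^ 2 - (ε / 3) ^ 2))]

theorem norm_one_sub_chi_le : ‖1 - chi x ε y‖ ≤ 1 := by
  have e : 1 - chi x ε y = ((Real.smoothTransition ((Complex.normSq (x y) - (ε / 3) ^ 2) /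
    ((2 * ε / 3) ^ 2 - (ε / 3) ^ 2)) : ℝ) : ℂ) := by
    rw [chi]; push_cast; ring
  rw [e, Complex.norm_real, Real.norm_eq_abs, abs_of_nonneg (Real.smoothTransition.nonneg _)]
  exact Real.smoothTransition.le_one _

theorem at0_chi (hx : At0 ∞ 0 x y) : At0 ∞ 0 (chi x ε) y := by
  have h1 : S0 (fun z => ((Complex.normSq (x z) : ℝ) : ℂ)) y := by
    have h2 : S0 (fun z => x z * conj (x z)) y := S0.mul hx (S0.conj hx)
    refine h2.congr (Eventually.of_forall fun z => ?_)
    exact Complex.mul_conj _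
  exact h1.real_comp (g := fun r => 1 - Real.smoothTransition ((r - (ε / 3) ^ 2) /
      ((2 * ε / 3) ^ 2 - (ε / 3) ^ 2)))
    (contDiff_const.sub (Real.smoothTransition.contDiff.comp
      ((contDiff_id.sub contDiff_const).div_const _)))

end cut

end Vale.Agent.P267.H433
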