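import Vale.Agent.P267.H433.StLoc

/-!
# P267, ROUTE S (helper433): `Q1`, `Q2` from the outputs T0, T1, T2 of block A
-/

set_option linter.unusedSectionVars false

open scoped Manifold ContDiff ComplexConjugate Matrix
open Set Filter Topology

noncomputable section

namespace Vale.Agent.P267.H433

open Vale.Agent.P267.FL Vale.Agent.P267.XT Vale.Agent.P267.H692 Vale.Agent.P267.H706

variable {M : Type} [TopologicalSpace M] [ChartedSpace C2 M] [IsManifold 𝓘(ℂ, C2) ω M]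
variable {ι : Type} [Fintype ι] [DecidableEq ι]
variable {D : XTData M}

/-- `Q1` from T1 (scalar form) and T0 for the trivial bundle -/
theorem q1_of {i₀ : ι} {d C : ℝ} (hC : 0 ≤ C) (hT : T1s D (-d))
    (h0 : D.T0 0 (LB.triv i₀ : LB M ι) 0 (ew (-d)) C) : Q1 D d := by
  refine ⟨C * (Real.exp |(-d)| * Real.exp |(-d)|), by positivity, fun g B hB hg hgb hcl => ?_⟩
  obtain ⟨u, hu, ⟨A, hA⟩, hdu⟩ := hT g hg ⟨B, hgb⟩ hcl
  obtain ⟨U, hU⟩ : ∃ U : M → EuclideanSpace ℂ ι, U = fun y => u y • eb i₀ := ⟨_, rfl⟩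
  have hU0 : ∀ y, n0 D.h 0 U y = ‖u y‖ := by
    intro y
    rw [n0_zero_exp, hU, norm_smul, norm_eb, mul_one]
  have hUr : Reg0 ∞ 0 U := by
    rw [hU, reg0_iff_at]
    intro y
    have := (hu.at y).clm (toE i₀)
    simpa using this
  have hUs : (LB.triv i₀ : LB M ι).Sec U := by
    intro y
    rw [hU]
    exact act_smul_eb i₀ _
  have hdU : ∀ y, (LB.triv i₀ : LB M ι).db0 0 0 U y = fun i => g y i • eb i₀ := by
    intro y
    funext i
    have h1 := dbar0_clm (toE i₀) ((hu.at y).of_le (m := 1) one_le_infty) i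
    simp only [toE_apply] at h1
    rw [LB.db0, hU, h1, hdu]
    simp only [LB.triv, act_smul_eb, Pi.zero_apply, zero_smul, add_zero]
  have hn1 : ∀ y, n1 D.h 0 ((LB.triv i₀ : LB M ι).db0 0 0 U) y = n1 D.h 0 g y := by
    intro y
    rw [n1_val (w' := fun z i => g z i • (eb i₀ : EuclideanSpace ℂ ι)) (hdU y), n1_smul_eb]
  have h1 : ∀ j, D.p0 0 U j ≤ (|A| * Real.exp |(-d)|) * ew (-d) j :=
    prof_le_ew D (abs_nonneg A) fun y => by
      rw [hU0]
      exact (hA y).trans (mul_le_mul_of_nonneg_right (le_abs_self A) (Real.exp_pos _).le)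
  have h2 : ∀ j, D.p1 0 ((LB.triv i₀ : LB M ι).db0 0 0 U) j ≤
      (B * Real.exp |(-d)|) * ew (-d) j :=
    prof_le_ew D hB fun y => by rw [hn1]; exact hgb y
  have h3 := h0 U hUr hUs ⟨_, h1⟩ _ h2
  have h4 : ∀ y, ‖u y‖ ≤ (|C * (B * Real.exp |(-d)|)| * Real.exp |(-d)|) *
      Real.exp (-d * D.f y) := fun y => by
    rw [← hU0]
    exact le_of_prof_ew D (continuous_n0 D.herm hUr) h3 y
  refine ⟨u, hu, fun y => (h4 y).trans (le_of_eq ?_), hdu⟩
  rw [abs_of_nonneg (by positivity)]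
  ring

/-- `Q2` from T2 -/
theorem q2_of {L : LB M ι} {a : M → Fin 2 → ℂ} {d C : ℝ} (hC : 0 ≤ C)
    (hT : D.T2 L.dual (fun x i => -a x i) (ew (-d)) C) : Q2 D L a d := by
  refine ⟨C * (Real.exp |(-d)| * Real.exp |(-d)|), by positivity, fun r B hB hr hrs hrb => ?_⟩
  obtain ⟨v, hv, hvs, hdv, hvb⟩ := hT r hr hrs (B * Real.exp |(-d)|) (by positivity)
    (prof_le_ew D hB hrb)
  have h4 := le_of_prof_ew D (XT.continuous_n1 D.herm hv) hvb
  refine ⟨v, hv, hvs, hdv, fun y => (h4 y).trans (le_of_eq ?_)⟩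
  rw [abs_of_nonneg (by positivity)]
  ring

end Vale.Agent.P267.H433
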