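import Vale.Agent.P267.H433.StLoc
import Vale.Agent.P267.H378.NFloc
import Vale.Agent.P267.H378.Met2
import Vale.Agent.P267.H181.Frm

/-!
# P267, ROUTE S (helper433): locally uniform limits of solutions of `∂̄S = b`
-/

set_option linter.unusedSectionVars false

open scoped Manifold ContDiff ComplexConjugate Matrix
open Set Filter Topology Metric

noncomputable section

namespace Vale.Agent.P267.H433

open Vale.Agent.P267.FL Vale.Agent.P267.XT

variable {M : Type} [TopologicalSpace M] [ChartedSpace C2 M] [IsManifold 𝓘(ℂ, C2) ω M]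
variable {h : M → Matrix (Fin 2) (Fin 2) ℂ}

/-- **Limits.** If `S_n → S` and `∂̄S_n → b` uniformly near `y₀`, `b` smooth and closed, then `S` is
smooth at `y₀` and `∂̄S = b` there. -/
theorem limit_at (hh : IsHerm h) {b : M → Fin 2 → ℂ} {Sn : ℕ → M → ℂ} {S : M → ℂ} {y₀ : M}
    {q : ℕ → ℝ} (hb : ∀ᶠ y in 𝓝 y₀, At1 ∞ 0 b y ∧ dbar1 0 b y = 0)
    (hq : Tendsto q atTop (𝓝 0))
    (hS : ∀ᶠ y in 𝓝 y₀, ∀ n, At0 ∞ 0 (Sn n) y ∧ ‖Sn n y - S y‖ ≤ q n ∧
      n1 h 0 (fun z i => dbar0 0 (Sn n) z i - b z i) y ≤ q n) :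
    At0 ∞ 0 S y₀ ∧ ∀ i, dbar0 0 S y₀ i = b y₀ i := by
  set e := chartAt C2 y₀ with he'
  have he : e ∈ atlas C2 M := chart_mem_atlas C2 y₀
  have hx : y₀ ∈ e.source := mem_chart_source C2 y₀
  obtain ⟨R, hR, hRt, φ, hφ, hpot⟩ := H181.exists_local_potential he hx hb
  obtain ⟨R', hR', hRt', hRp⟩ := H181.exists_ball (e := e) hx ((tendsto_symm_nhds hx).eventually
    (hb.and hS))
  set ρ : ℝ := min R R' / 2 with hρ
  have hρ0 : 0 < ρ := by
    have := lt_min hR hR'
    positivity
  have hKR : closedBall (e y₀) ρ ⊆ ball (e y₀) R :=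
    closedBall_subset_ball (by rw [hρ]; have := min_le_left R R'; linarith)
  have hKR' : closedBall (e y₀) ρ ⊆ ball (e y₀) R' :=
    closedBall_subset_ball (by rw [hρ]; have := min_le_right R R'; linarith)
  have hVK : ball (e y₀) ρ ⊆ closedBall (e y₀) ρ := ball_subset_closedBall
  have hKt : closedBall (e y₀) ρ ⊆ e.target := hKR.trans hRt
  obtain ⟨C, hC, hcmp⟩ := H378.n1_compare hh he hKt (isCompact_closedBall _ _) 0
  set V : Set C2 := ball (e y₀) ρ with hV
  have hVo : IsOpen V := isOpen_ball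
  have hmem : e y₀ ∈ V := mem_ball_self hρ0
  -- smoothness in the chart
  have hsm : ∀ z ∈ V, ∀ n, ContDiffAt ℝ ∞ (loc0 0 e (Sn n)) z := by
    intro z hz n
    have hzt := hKt (hVK hz)
    have := ((hRp z (hKR' (hVK hz))).2 n).1.chart he (e.map_target hzt)
    rwa [e.right_inv hzt] at this
  set u : ℕ → C2 → ℂ := fun n z => loc0 0 e (Sn n) z - φ z with hu
  set U : C2 → ℂ := fun z => loc0 0 e S z - φ z with hU
  have hu1 : ∀ n, ContDiffOn ℝ 1 (u n) V := fun n z hz =>
    (((hsm z hz n).of_le H706.one_le_infty).sub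
      ((hφ.of_le H706.one_le_infty).contDiffAt)).contDiffWithinAt
  have hlim : TendstoUniformlyOn u U atTop V := by
    rw [Metric.tendstoUniformlyOn_iff]
    intro ε hε
    filter_upwards [hq.eventually (gt_mem_nhds hε)] with n hn z hz
    have h1 := ((hRp z (hKR' (hVK hz))).2 n).2.1
    rw [dist_comm, dist_eq_norm]
    simp only [hu, hU, LB.loc0_zero, Function.comp_apply]
    calc ‖Sn n (e.symm z) - φ z - (S (e.symm z) - φ z)‖ = ‖Sn n (e.symm z) - S (e.symm z)‖ := by
          congr 1; ring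
      _ ≤ q n := h1
      _ < ε := hn
  have hdzb : ∀ n, ∀ z ∈ V, ∀ i, ‖dzb i (u n) z‖ ≤ C * q n := by
    intro n z hz i
    have hzt := hKt (hVK hz)
    have h2 := (hRp z (hKR' (hVK hz))).2 n
    have h3 : dzb i (u n) z = loc1 0 e (fun y i => dbar0 0 (Sn n) y i - b y i) z i := by
      have e1 := dzb_sub (f := loc0 0 e (Sn n)) (g := φ)
        ((hsm z hz n).differentiableAt (by simp))
        ((hφ.contDiffAt).differentiableAt (by simp)) i
      rw [hu]
      simp only
      rw [e1, hpot z (hKR (hVK hz)), ← loc1_dbar0 he hzt ((hsm z hz n).differentiableAt (by simp))]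
      simp only [loc1, smul_sub, Finset.sum_sub_distrib]
    rw [h3]
    refine (norm_le_pi_norm _ i).trans ?_
    refine ((hcmp z (hVK hz) _).1).trans ?_
    exact mul_le_mul_of_nonneg_left h2.2.2 hC.le
  have hhol : DifferentiableOn ℂ U V := by
    refine H378.limit_open (l := atTop) hVo (Eventually.of_forall hu1) hlim ?_
    intro ε hε
    have h1 : Tendsto (fun n => 4 * (C * q n)) atTop (𝓝 (4 * (C * 0))) :=
      (hq.const_mul C).const_mul 4
    rw [mul_zero, mul_zero] at h1
    filter_upwards [h1.eventually (gt_mem_nhds hε)] with n hn z hz v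
    refine (H378.norm_dbv_le (hdzb n z hz) v).trans ?_
    exact mul_le_mul_of_nonneg_right hn.le (norm_nonneg _)
  have han : AnalyticAt ℂ U (e y₀) := P281.MF.analyticAt_of_differentiableOn hVo hhol hmem
  have hUsm : ContDiffAt ℝ ∞ U (e y₀) := (han.contDiffAt (n := ∞)).restrict_scalars ℝ
  have hSe : loc0 0 e S = fun z => U z + φ z := by
    funext z
    rw [hU]; ring
  refine ⟨?_, fun i => ?_⟩
  · show ContDiffAt ℝ ∞ (loc0 0 e S) (e y₀)
    rw [hSe]
    exact hUsm.add hφ.contDiffAt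
  · show dzb i (loc0 0 e S) (e y₀) = b y₀ i
    rw [hSe, dzb_add (hUsm.differentiableAt (by simp))
      ((hφ.contDiffAt).differentiableAt (by simp)), dzb_of_hol han.differentiableAt, zero_add,
      hpot _ (mem_ball_self hR), loc1_chartAt]

end Vale.Agent.P267.H433
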