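import Vale.Agent.P267.H433.St2
import Vale.Agent.P267.H433.SumLim

/-!
# P267, ROUTE S (helper433): (S2), the series
-/

set_option linter.unusedSectionVars false

open scoped Manifold ContDiff ComplexConjugate Matrix
open Set Filter Topology Metric

noncomputable section

namespace Vale.Agent.P267.H433

open Vale.Agent.P267.FL Vale.Agent.P267.XT

variable {M : Type} [TopologicalSpace M] [ChartedSpace C2 M] [IsManifold 𝓘(ℂ, C2) ω M]
variable {D : XTData M} {d : ℝ} {N N' : Set M} {x : M → ℂ}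

theorem At0.pow {n : WithTop ℕ∞} {x : M → ℂ} {y : M} (hx : At0 n 0 x y) (k : ℕ) :
    At0 n 0 (fun z => x z ^ k) y :=
  FL.At0.comp hx (g := fun w : ℂ => w ^ k) (contDiff_id.pow k).contDiffAt

theorem dbar0_pow {x : M → ℂ} {y : M} (hx : At0 1 0 x y) (h0 : ∀ i, dbar0 0 x y i = 0) (k : ℕ)
    (i : Fin 2) : dbar0 0 (fun z => x z ^ k) y i = 0 := by
  rw [dbar0_comp_deriv (g := fun w : ℂ => w ^ k) hx (differentiable_pow k).differentiableAt,
    h0, mul_zero]

/-- iteration of one step -/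
theorem exists_seq (h1 : OneStep D d N N' x) : ∃ C : ℝ, 0 ≤ C ∧
    ∀ (b : M → Fin 2 → ℂ) (B : ℝ), 0 ≤ B → Clo D d N b B →
    ∃ (s : ℕ → M → ℂ) (bb : ℕ → M → Fin 2 → ℂ), bb 0 = b ∧
      (∀ k, ∀ y ∈ N', At0 ∞ 0 (s k) y) ∧
      (∀ k, ∀ y ∈ N', ‖s k y‖ ≤ C * (C ^ k * B) * Real.exp (-d * D.f y)) ∧
      (∀ k, Clo D d N (bb k) (C ^ k * B)) ∧
      ∀ k, ∀ y ∈ N', ∀ i, bb k y i = dbar0 0 (s k) y i + x y * bb (k + 1) y i := by
  obtain ⟨C, hC, hstep⟩ := h1
  refine ⟨C, hC, fun b B hB hb => ?_⟩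
  have hstep' : ∀ (b : M → Fin 2 → ℂ) (B : ℝ), ∃ (s : M → ℂ) (b₁ : M → Fin 2 → ℂ),
      0 ≤ B → Clo D d N b B → (∀ y ∈ N', At0 ∞ 0 s y) ∧
      (∀ y ∈ N', ‖s y‖ ≤ C * B * Real.exp (-d * D.f y)) ∧ Clo D d N b₁ (C * B) ∧
      ∀ y ∈ N', ∀ i, b y i = dbar0 0 s y i + x y * b₁ y i := by
    intro b B
    by_cases hB : 0 ≤ B
    · by_cases hb : Clo D d N b B
      · obtain ⟨s, b₁, h⟩ := hstep b B hB hb
        exact ⟨s, b₁, fun _ _ => h⟩
      · exact ⟨fun _ => 0, fun _ _ => 0, fun _ h => absurd h hb⟩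
    · exact ⟨fun _ => 0, fun _ _ => 0, fun h => absurd h hB⟩
  choose S b₁ hS using hstep'
  obtain ⟨bb, hbb⟩ : ∃ bb : ℕ → M → Fin 2 → ℂ,
      bb = fun n => Nat.rec b (fun k c => b₁ c (C ^ k * B)) n := ⟨_, rfl⟩
  have hb0 : bb 0 = b := by subst hbb; rfl
  have hbs : ∀ k, bb (k + 1) = b₁ (bb k) (C ^ k * B) := fun k => by subst hbb; rfl
  have hpos : ∀ k : ℕ, 0 ≤ C ^ k * B := fun k => by positivity
  have hclo : ∀ k, Clo D d N (bb k) (C ^ k * B) := by
    intro k
    induction k with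
    | zero => rw [hb0, pow_zero, one_mul]; exact hb
    | succ k ih =>
      have := (hS (bb k) (C ^ k * B) (hpos k) ih).2.2.1
      rw [← hbs, ← mul_assoc, ← pow_succ'] at this
      exact this
  refine ⟨fun k => S (bb k) (C ^ k * B), bb, hb0, fun k => (hS _ _ (hpos k) (hclo k)).1,
    fun k => (hS _ _ (hpos k) (hclo k)).2.1, hclo, fun k y hy i => ?_⟩
  rw [hbs]
  exact (hS _ _ (hpos k) (hclo k)).2.2.2 y hy i

/-- **(S2).** -/
theorem solv_of_oneStep (hN' : IsOpen N') (hsub : N' ⊆ N) (hxs : ∀ y ∈ N, At0 ∞ 0 x y)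
    (hxh : ∀ y ∈ N, ∀ i, dbar0 0 x y i = 0) (h1 : OneStep D d N N' x) : Solv D d N N' x := by
  obtain ⟨C, hC, hseq⟩ := exists_seq h1
  obtain ⟨ε', hε', hε'0⟩ : ∃ ε' : ℝ, ε' = 1 / (2 * (C + 1)) ∧ 0 < ε' := ⟨_, rfl, by positivity⟩
  refine ⟨ε', hε'0, 2 * C, by positivity, fun b B hB hb => ?_⟩
  obtain ⟨s, bb, hb0, hs1, hs2, hbb, hrec⟩ := hseq b B hB hb
  -- geometric bounds
  have hgeo : ∀ y, ‖x y‖ < ε' → ∀ k : ℕ, ‖x y‖ ^ k * C ^ k ≤ (1 / 2) ^ k := by
    intro y hy k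
    rw [← mul_pow]
    refine pow_le_pow_left₀ (by positivity) ?_ k
    have h2 : ‖x y‖ * C ≤ ε' * (C + 1) :=
      mul_le_mul hy.le (by linarith) hC hε'0.le
    have h3 : ε' * (C + 1) = 1 / 2 := by
      rw [hε']
      have : C + 1 ≠ 0 := by positivity
      field_simp
    linarith
  have hterm : ∀ y ∈ N', ‖x y‖ < ε' → ∀ k : ℕ, ‖x y ^ k * s k y‖ ≤
      (C * B * Real.exp (-d * D.f y)) * (1 / 2) ^ k := by
    intro y hy hx k
    rw [norm_mul, norm_pow]
    calc ‖x y‖ ^ k * ‖s k y‖ ≤ ‖x y‖ ^ k * (C * (C ^ k * B) * Real.exp (-d * D.f y)) :=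
          mul_le_mul_of_nonneg_left (hs2 k y hy) (by positivity)
      _ = (C * B * Real.exp (-d * D.f y)) * (‖x y‖ ^ k * C ^ k) := by ring
      _ ≤ _ := mul_le_mul_of_nonneg_left (hgeo y hx k) (by positivity)
  have hgs : Summable fun k : ℕ => (1 / 2 : ℝ) ^ k := summable_geometric_two
  have hsum : ∀ y ∈ N', ‖x y‖ < ε' → Summable fun k : ℕ => x y ^ k * s k y := fun y hy hx =>
    Summable.of_norm_bounded (hgs.mul_left _) (hterm y hy hx)
  obtain ⟨Sn, hSn⟩ : ∃ Sn : ℕ → M → ℂ,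
    Sn = fun n y => ∑ k ∈ Finset.range n, x y ^ k * s k y := ⟨_, rfl⟩
  obtain ⟨S, hS⟩ : ∃ S : M → ℂ, S = fun y => ∑' k : ℕ, x y ^ k * s k y := ⟨_, rfl⟩
  -- the remainder
  have hrem : ∀ y ∈ N', ‖x y‖ < ε' → ∀ n, ‖Sn n y - S y‖ ≤
      (2 * (C * B * Real.exp (-d * D.f y))) * (1 / 2) ^ n := by
    intro y hy hx n
    have h2 := (hsum y hy hx).sum_add_tsum_nat_add n
    have h3 : Sn n y - S y = -∑' k : ℕ, x y ^ (k + n) * s (k + n) y := by
      rw [hSn, hS]
      simp only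
      rw [← h2]
      ring
    have h4 : ∀ k : ℕ, ‖x y ^ (k + n) * s (k + n) y‖ ≤
        ((C * B * Real.exp (-d * D.f y)) * (1 / 2) ^ n) * (1 / 2) ^ k := fun k =>
      (hterm y hy hx (k + n)).trans (le_of_eq (by rw [pow_add]; ring))
    rw [h3, norm_neg]
    refine (tsum_of_norm_bounded (hgs.hasSum.mul_left _) h4).trans (le_of_eq ?_)
    rw [tsum_geometric_two]
    ring
  -- regularity of the partial sums
  have hSsm : ∀ n, ∀ y ∈ N', At0 ∞ 0 (Sn n) y := by
    intro n y hy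
    rw [hSn]
    exact At0.sum fun k _ => (At0.pow (hxs y (hsub hy)) k).mul (hs1 k y hy)
  have hdS : ∀ n, ∀ y ∈ N', ∀ i, b y i = dbar0 0 (Sn n) y i + x y ^ n * bb n y i := by
    intro n y hy i
    have hterm1 : ∀ k, At0 1 0 (fun z => x z ^ k * s k z) y := fun k =>
      ((At0.pow (hxs y (hsub hy)) k).mul (hs1 k y hy)).of_le H706.one_le_infty
    have hd : ∀ k, dbar0 0 (fun z => x z ^ k * s k z) y i = x y ^ k * dbar0 0 (s k) y i := by
      intro k
      rw [FL.dbar0_mul ((At0.pow (hxs y (hsub hy)) k).of_le H706.one_le_infty)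
        ((hs1 k y hy).of_le H706.one_le_infty),
        dbar0_pow ((hxs y (hsub hy)).of_le H706.one_le_infty) (hxh y (hsub hy)), zero_mul,
        zero_add]
    have h2 : dbar0 0 (Sn n) y i = ∑ k ∈ Finset.range n, x y ^ k * dbar0 0 (s k) y i := by
      rw [hSn, dbar0_sum fun k _ => hterm1 k, Finset.sum_apply]
      exact Finset.sum_congr rfl fun k _ => hd k
    rw [h2]
    clear h2
    induction n with
    | zero => rw [hb0]; simp
    | succ n ih =>
      rw [ih, hrec n y hy i, Finset.sum_range_succ]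
      ring
  refine ⟨S, fun y hy hx => ?_⟩
  -- a neighbourhood of `y` on which the weight is bounded
  have hfc : ContinuousAt (fun z => Real.exp (-d * D.f z)) y :=
    (Real.continuous_exp.comp (continuous_const.mul (H692.continuous_f D))).continuousAt
  obtain ⟨E, hE⟩ : ∃ E : ℝ, E = Real.exp (-d * D.f y) + 1 := ⟨_, rfl⟩
  have hE0 : 0 < E := by rw [hE]; positivity
  have hnear : ∀ᶠ z in 𝓝 y, z ∈ N' ∧ ‖x z‖ < ε' ∧ Real.exp (-d * D.f z) ≤ E := by
    have h0 : ∀ᶠ z in 𝓝 y, z ∈ N' := hN'.mem_nhds hy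
    refine h0.and ?_
    refine ((hxs y (hsub hy)).continuousAt.norm.eventually_lt_const hx).and ?_
    refine (hfc.eventually_lt_const (u := E) ?_).mono fun z hz => hz.le
    rw [hE]; linarith
  obtain ⟨Q, hQ⟩ : ∃ Q : ℝ, Q = 2 * C * B * E + B * E := ⟨_, rfl⟩
  have hq : Tendsto (fun n : ℕ => Q * (1 / 2 : ℝ) ^ n) atTop (𝓝 0) := by
    have := (tendsto_pow_atTop_nhds_zero_of_lt_one (r := (1 / 2 : ℝ)) (by norm_num)
      (by norm_num)).const_mul Q
    rwa [mul_zero] at this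
  have hlim := limit_at (h := D.h) D.herm (b := b) (Sn := Sn) (S := S) (y₀ := y)
    (hnear.mono fun z hz => ⟨hb.sm z (hsub hz.1), hb.cl z (hsub hz.1)⟩) hq
    (hnear.mono fun z hz n => by
      refine ⟨hSsm n z hz.1, (hrem z hz.1 hz.2.1 n).trans ?_, ?_⟩
      · refine mul_le_mul_of_nonneg_right ?_ (by positivity)
        have h5 : 2 * (C * B * Real.exp (-d * D.f z)) ≤ 2 * C * B * E := by
          have := mul_le_mul_of_nonneg_left hz.2.2 (show 0 ≤ 2 * C * B by positivity)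
          calc 2 * (C * B * Real.exp (-d * D.f z)) = 2 * C * B * Real.exp (-d * D.f z) := by ring
            _ ≤ _ := this
        have h6 : 0 ≤ B * E := by positivity
        rw [hQ]
        linarith
      · have e1 : (fun w i => dbar0 0 (Sn n) w i - b w i) z =
            (fun w i => -(x w ^ n) • bb n w i) z := by
          funext i
          simp only [smul_eq_mul]
          rw [hdS n z hz.1 i]
          ring
        rw [n1_val (w' := fun w i => -(x w ^ n) • bb n w i) e1,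
          H692.n1_smul D.herm (fun w => -(x w ^ n))]
        have h7 := (hbb n).bd z (hsub hz.1)
        rw [norm_neg, norm_pow]
        calc ‖x z‖ ^ n * n1 D.h 0 (bb n) z
            ≤ ‖x z‖ ^ n * (C ^ n * B * Real.exp (-d * D.f z)) :=
              mul_le_mul_of_nonneg_left h7 (by positivity)
          _ = (B * Real.exp (-d * D.f z)) * (‖x z‖ ^ n * C ^ n) := by ring
          _ ≤ (B * E) * (1 / 2) ^ n := by
              refine mul_le_mul (mul_le_mul_of_nonneg_left hz.2.2 hB) (hgeo z hz.2.1 n)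
                (by positivity) (by positivity)
          _ ≤ Q * (1 / 2) ^ n := by
              refine mul_le_mul_of_nonneg_right ?_ (by positivity)
              have : 0 ≤ 2 * C * B * E := by positivity
              rw [hQ]
              linarith)
  refine ⟨hlim.1, hlim.2, ?_⟩
  have h8 := hrem y hy hx 0
  rw [hSn] at h8
  simp only [Finset.range_zero, Finset.sum_empty, zero_sub, norm_neg, pow_zero, mul_one] at h8
  calc ‖S y‖ ≤ 2 * (C * B * Real.exp (-d * D.f y)) := h8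
    _ = 2 * C * B * Real.exp (-d * D.f y) := by ring

section final

variable {ι : Type} [Fintype ι] [DecidableEq ι]
variable {L : LB M ι} {a : M → Fin 2 → ℂ} {α : M → EuclideanSpace ℂ ι} {F : Set M}
  {lam : M → EuclideanSpace ℂ ι} {ε : ℝ}

/-- **GS-DBAR: (S1) + (S2).** -/
theorem StDat.solv (H : StDat D L a α d N N' F x lam ε) : Solv D d N N' x :=
  solv_of_oneStep H.N'_open H.sub' H.x_sm H.x_hol H.oneStep

end final

end Vale.Agent.P267.H433
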